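import Vale.Agent.P259.Spec
import Vale.Agent.P259.Top.Localise

/-!
# P259: assembly of the equivalence of homotopy categories from the module interfaces
-/

namespace Vale.Agent.P259

open CategoryTheory

noncomputable section

theorem hypothesis_of_interfaces (hS : Spec.SimplicesExist) (hD : Spec.DiscExists)
    (hpi : Spec.PiPreserves) (hreal : Spec.RealPreserves) (htop : Spec.TopReal)
    (hmod : Spec.ModelReal) : ∀ C : Coherator, Hypothesis C := by
  intro C
  obtain ⟨S⟩ := hS C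
  obtain ⟨D, hwc⟩ := hD C
  obtain ⟨Q, e, η, hQ⟩ := htop C S D hwc
  obtain ⟨M, p, q, hM⟩ := hmod C S D hwc
  let Φ : LocalizerMorphism topWeq C.C.weq := ⟨D.pi, hpi C D⟩
  let Ψ : LocalizerMorphism C.C.weq topWeq := ⟨S.toSimpBase.realFunctor, hreal C S⟩
  have : Φ.IsLocalizedEquivalence :=
    P259.Top.isLocalizedEquivalence_of_spans Φ Ψ e η (fun Y => (hQ Y).1) (fun Y => (hQ Y).2)
      p q (fun X => (hM X).1) (fun X => (hM X).2)
  let e' : D.pi ⋙ C.C.weq.Q ≅ topWeq.Q ⋙ Φ.localizedFunctor topWeq.Q C.C.weq.Q :=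
    (Φ.catCommSq topWeq.Q C.C.weq.Q).iso
  exact ⟨D, hpi C D, Φ.localizedFunctor topWeq.Q C.C.weq.Q, ⟨e'.symm⟩,
    P259.Top.isEquivalence_induced Φ topWeq.Q C.C.weq.Q _ e'⟩

end

end Vale.Agent.P259
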