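import Vale.Agent.P259.Final.SideChange

/-!
# P259: concatenation and reversal of homotopies
-/

namespace Vale.Agent.P259

open scoped Topology unitInterval

noncomputable section

variable {K : Type} [TopologicalSpace K] {W : Type} [TopologicalSpace W]

/-- Double speed on the first half. -/
def dblLo (t : I) : I := Set.projIcc 0 1 zero_le_one (2 * (t : ℝ))

/-- Double speed on the second half. -/
def dblHi (t : I) : I := Set.projIcc 0 1 zero_le_one (2 * (t : ℝ) - 1)

/-- The concatenation of two homotopies. -/
def catH (F G : C(K × I, W)) (h : ∀ k, F (k, 1) = G (k, 0)) : C(K × I, W) where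
  toFun p := if (p.2 : ℝ) ≤ 1 / 2 then F (p.1, dblLo p.2) else G (p.1, dblHi p.2)
  continuous_toFun := by
    refine Continuous.if_le ?_ ?_ (continuous_subtype_val.comp continuous_snd) continuous_const
      fun p hp => ?_
    · exact F.continuous.comp (continuous_fst.prodMk (continuous_projIcc.comp
        (continuous_const.mul (continuous_subtype_val.comp continuous_snd))))
    · exact G.continuous.comp (continuous_fst.prodMk (continuous_projIcc.comp
        ((continuous_const.mul (continuous_subtype_val.comp continuous_snd)).sub continuous_const)))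
    · have hp' : (p.2 : ℝ) = 1 / 2 := hp
      have h1 : dblLo p.2 = 1 := Subtype.ext (by
        simp [dblLo, Set.projIcc, hp'])
      have h0 : dblHi p.2 = 0 := Subtype.ext (by
        simp [dblHi, Set.projIcc, hp'])
      rw [h1, h0, h]

theorem catH_zero (F G : C(K × I, W)) (h : ∀ k, F (k, 1) = G (k, 0)) (k : K) :
    catH F G h (k, 0) = F (k, 0) := by
  show (if ((0 : I) : ℝ) ≤ 1 / 2 then F (k, dblLo 0) else G (k, dblHi 0)) = _
  rw [if_pos (by norm_num), show dblLo 0 = 0 from Subtype.ext (by simp [dblLo, Set.projIcc])]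

theorem catH_one (F G : C(K × I, W)) (h : ∀ k, F (k, 1) = G (k, 0)) (k : K) :
    catH F G h (k, 1) = G (k, 1) := by
  show (if ((1 : I) : ℝ) ≤ 1 / 2 then F (k, dblLo 1) else G (k, dblHi 1)) = _
  rw [if_neg (by norm_num),
    show dblHi 1 = 1 from Subtype.ext (by norm_num [dblHi, Set.projIcc])]

/-- Concatenation commutes with a map of the source and the target. -/
theorem catH_nat {K' : Type} [TopologicalSpace K'] {W' : Type} [TopologicalSpace W']
    (F G : C(K × I, W)) (h : ∀ k, F (k, 1) = G (k, 0)) (F' G' : C(K' × I, W'))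
    (h' : ∀ k, F' (k, 1) = G' (k, 0)) (r : C(W', W)) (i : K' → K)
    (hF : ∀ k t, F (i k, t) = r (F' (k, t))) (hG : ∀ k t, G (i k, t) = r (G' (k, t)))
    (k : K') (t : I) : catH F G h (i k, t) = r (catH F' G' h' (k, t)) := by
  show (if (t : ℝ) ≤ 1 / 2 then F (i k, dblLo t) else G (i k, dblHi t)) =
    r (if (t : ℝ) ≤ 1 / 2 then F' (k, dblLo t) else G' (k, dblHi t))
  split_ifs
  · exact hF k _
  · exact hG k _

/-- The reversed homotopy. -/
def revH (F : C(K × I, W)) : C(K × I, W) :=
  F.comp ⟨fun p => (p.1, unitInterval.symm p.2),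
    continuous_fst.prodMk (unitInterval.continuous_symm.comp continuous_snd)⟩

theorem revH_apply (F : C(K × I, W)) (k : K) (t : I) :
    revH F (k, t) = F (k, unitInterval.symm t) := rfl

theorem revH_zero (F : C(K × I, W)) (k : K) : revH F (k, 0) = F (k, 1) := by
  rw [revH_apply, unitInterval.symm_zero]

theorem revH_one (F : C(K × I, W)) (k : K) : revH F (k, 1) = F (k, 0) := by
  rw [revH_apply, unitInterval.symm_one]

end

end Vale.Agent.P259
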