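import Vale.Agent.P259.Final.SideChange
import Vale.Agent.P259.Final.Homotopy
import Vale.Agent.P259.Top.Preserves

/-!
# P259: change of base point for maps of discs
-/

namespace Vale.Agent.P259

open CategoryTheory P259.Top
open scoped Topology unitInterval

noncomputable section

/-- The unit interval is weakly contractible. -/
theorem wc_unitInterval : WC I := by
  intro k f
  obtain ⟨g, hg⟩ := (⟨fun v => (f v : ℝ), continuous_subtype_val.comp f.continuous⟩ :
    C(rim k, ℝ)).exists_restrict_eq (isClosed_rim k)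
  refine ⟨⟨fun v => Set.projIcc 0 1 zero_le_one (g v), continuous_projIcc.comp g.continuous⟩,
    fun v => ?_⟩
  show Set.projIcc 0 1 zero_le_one (g v.1) = f v
  have h : g v.1 = (f v : ℝ) := DFunLike.congr_fun hg v
  rw [h, Set.projIcc_val]

variable {A B : Type} [TopologicalSpace A] [TopologicalSpace B] {n : ℕ}

/-- A homotopy of maps of a ball which moves the sphere along a path. -/
def Along (γ : C(I, A)) (a b : C(Ball n, A)) : Prop :=
  ∃ F : C(Ball n × I, A), (∀ v, F (v, 0) = a v) ∧ (∀ v, F (v, 1) = b v) ∧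
    ∀ (v : rim n) t, F (v.1, t) = γ t

/-- The reversed path. -/
def revP (γ : C(I, A)) : C(I, A) :=
  γ.comp ⟨unitInterval.symm, unitInterval.continuous_symm⟩

theorem revP_apply (γ : C(I, A)) (t : I) : revP γ t = γ (unitInterval.symm t) := rfl

theorem revP_revP (γ : C(I, A)) : revP (revP γ) = γ :=
  ContinuousMap.ext fun t => congrArg γ (unitInterval.symm_symm t)

theorem exists_along (γ : C(I, A)) (a : C(Ball n, A)) (ha : ∀ v : rim n, a v.1 = γ 0) :
    ∃ b, Along γ a b ∧ ∀ v : rim n, b v.1 = γ 1 := by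
  obtain ⟨G, hG0, hGs⟩ := exists_cyl_lift a (γ.comp ⟨Prod.snd, continuous_snd⟩)
    fun v => (ha v).symm
  exact ⟨G.comp ⟨fun v => (v, 1), continuous_id.prodMk continuous_const⟩,
    ⟨G, hG0, fun v => rfl, fun v t => hGs v t⟩, fun v => hGs v 1⟩

theorem Along.symm {γ : C(I, A)} {a b : C(Ball n, A)} (h : Along γ a b) :
    Along (revP γ) b a := by
  obtain ⟨F, h0, h1, hs⟩ := h
  exact ⟨revH F, fun v => (revH_zero F v).trans (h1 v), fun v => (revH_one F v).trans (h0 v),
    fun v t => hs v _⟩

theorem Along.map {γ : C(I, A)} {a b : C(Ball n, A)} (h : Along γ a b) (k : C(A, B)) :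
    Along (k.comp γ) (k.comp a) (k.comp b) := by
  obtain ⟨F, h0, h1, hs⟩ := h
  exact ⟨k.comp F, fun v => congrArg k (h0 v), fun v => congrArg k (h1 v),
    fun v t => congrArg k (hs v t)⟩

/-- Going along a path, and back, after a homotopy relative to the sphere. -/
theorem Along.conj {γ : C(I, A)} {a b a' b' : C(Ball n, A)} (h : Along γ a b)
    (h' : Along γ a' b') (hr : Along (ContinuousMap.const I (γ 1)) b b') :
    Along (ContinuousMap.const I (γ 0)) a a' := by
  obtain ⟨F, F0, F1, Fs⟩ := h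
  obtain ⟨F', F'0, F'1, F's⟩ := h'
  obtain ⟨H, H0, H1, Hs⟩ := hr
  have e1 : ∀ v, H (v, 1) = revH F' (v, 0) := fun v => by rw [H1, revH_zero, F'1]
  have e0 : ∀ v, F (v, 1) = catH H (revH F') e1 (v, 0) := fun v => by rw [catH_zero, F1, H0]
  let s : C(rim n × I, I) := ⟨Prod.snd, continuous_snd⟩
  let one : C(rim n × I, I) := ContinuousMap.const _ 1
  have f1 : ∀ v : rim n, one (v, 1) = revH s (v, 0) := fun v => (revH_zero s v).symm
  have f0 : ∀ v : rim n, s (v, 1) = catH one (revH s) f1 (v, 0) := fun v =>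
    (catH_zero one (revH s) f1 v).symm
  obtain ⟨G, hG0, hG1, hGs⟩ := exists_side_change wc_unitInterval γ
    (catH F (catH H (revH F') e1) e0) (catH s (catH one (revH s) f1) f0)
    (ContinuousMap.const _ 0)
    (fun v t => catH_nat F (catH H (revH F') e1) e0 s (catH one (revH s) f1) f0 γ Subtype.val
      (fun k u => Fs k u)
      (fun k u => catH_nat H (revH F') e1 one (revH s) f1 γ Subtype.val (fun k u => Hs k u)
        (fun k u => F's k _) k u) v t)
    (fun v => by rw [catH_zero]; rfl)
    (fun v => by rw [catH_one, catH_one, revH_one]; rfl)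
  refine ⟨G, fun v => ?_, fun v => ?_, fun v t => hGs v t⟩
  · rw [hG0, catH_zero, F0]
  · rw [hG1, catH_one, catH_one, revH_one, F'0]

/-- A disc loop, on the ball. -/
def ballLoop {y : A} (p : DiscLoop n A y) : C(Ball n, A) :=
  p.1.comp (ballDisc n : C(Ball n, Disc n))

theorem ballLoop_rim {y : A} (p : DiscLoop n A y) (v : rim n) : ballLoop p v.1 = y :=
  p.2 _ ((Ball.mem_rim_iff v.1).1 v.2)

theorem exists_ballLoop {y : A} (b : C(Ball n, A)) (hb : ∀ v : rim n, b v.1 = y) :
    ∃ p : DiscLoop n A y, ballLoop p = b := by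
  refine ⟨⟨b.comp ((ballDisc n).symm : C(Disc n, Ball n)), fun w hw => ?_⟩,
    ContinuousMap.ext fun v => congrArg b ((ballDisc n).symm_apply_apply v)⟩
  obtain ⟨v, rfl⟩ := (ballDisc n).surjective w
  show b ((ballDisc n).symm (ballDisc n v)) = y
  rw [Homeomorph.symm_apply_apply]
  exact hb ⟨v, (Ball.mem_rim_iff v).2 hw⟩

theorem filler_iff_along {y : A} (p q : DiscLoop n A y) :
    Filler p.1 q.1 ↔ Along (ContinuousMap.const I y) (ballLoop p) (ballLoop q) := by
  rw [filler_iff_homotopicRel]
  constructor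
  · rintro ⟨F⟩
    refine ⟨F.toContinuousMap.comp ⟨fun p => (p.2, ballDisc n p.1),
      continuous_snd.prodMk ((ballDisc n).continuous.comp continuous_fst)⟩,
      fun v => F.apply_zero _, fun v => F.apply_one _, fun v t => ?_⟩
    exact (F.eq_fst t ((Ball.mem_rim_iff v.1).1 v.2)).trans (ballLoop_rim p v)
  · rintro ⟨F, h0, h1, hs⟩
    refine ⟨⟨⟨F.comp ⟨fun p => ((ballDisc n).symm p.2, p.1),
      ((ballDisc n).symm.continuous.comp continuous_snd).prodMk continuous_fst⟩,
      fun w => ?_, fun w => ?_⟩, fun t w hw => ?_⟩⟩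
    · exact (h0 _).trans (congrArg p.1 ((ballDisc n).apply_symm_apply w))
    · exact (h1 _).trans (congrArg q.1 ((ballDisc n).apply_symm_apply w))
    · have hv : (ballDisc n).symm w ∈ rim n := by
        rw [Ball.mem_rim_iff, Homeomorph.apply_symm_apply]
        exact hw
      exact (hs ⟨_, hv⟩ t).trans (p.2 w hw).symm

/-- Bijectivity on classes of disc loops at a point. -/
def BijAt (k : C(A, B)) (n : ℕ) (x : A) : Prop :=
  (∀ c : DiscLoop n B (k x), ∃ a : DiscLoop n A x, Filler (k.comp a.1) c.1) ∧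
  ∀ a b : DiscLoop n A x, Filler (k.comp a.1) (k.comp b.1) → Filler a.1 b.1

theorem filler_map_iff {k : C(A, B)} {x : A} (a : DiscLoop n A x) (c : DiscLoop n B (k x)) :
    Filler (k.comp a.1) c.1 ↔
      Along (ContinuousMap.const I (k x)) (k.comp (ballLoop a)) (ballLoop c) :=
  filler_iff_along (DiscLoop.map k a) c

/-- Bijectivity at a point gives it at every point in its path component. -/
theorem BijAt.of_joined {k : C(A, B)} {x x' : A} (h : BijAt k n x') (hj : Joined x' x) :
    BijAt k n x := by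
  obtain ⟨p⟩ := hj
  obtain ⟨γ, g0, g1⟩ : ∃ γ : C(I, A), γ 0 = x' ∧ γ 1 = x :=
    ⟨p.toContinuousMap, p.source, p.target⟩
  have r0 : revP γ 0 = x := by rw [revP_apply, unitInterval.symm_zero, g1]
  have r1 : revP γ 1 = x' := by rw [revP_apply, unitInterval.symm_one, g0]
  refine ⟨fun c => ?_, fun a b hab => ?_⟩
  · obtain ⟨c', hc, hc'⟩ := exists_along (k.comp (revP γ)) (ballLoop c) fun v =>
      (ballLoop_rim c v).trans (congrArg k r0).symm
    obtain ⟨c'', rfl⟩ := exists_ballLoop c' fun v => (hc' v).trans (congrArg k r1)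
    obtain ⟨a', ha'⟩ := h.1 c''
    obtain ⟨a, ha, har⟩ := exists_along γ (ballLoop a') fun v => (ballLoop_rim a' v).trans g0.symm
    obtain ⟨a, rfl⟩ := exists_ballLoop a fun v => (har v).trans g1
    refine ⟨a, (filler_map_iff a c).2 ?_⟩
    have := (ha.symm.map k).conj hc (by
      show Along (ContinuousMap.const I (k (revP γ 1))) _ _
      rw [r1]
      exact (filler_map_iff a' c'').1 ha')
    have e : k.comp (revP γ) 0 = k x := congrArg k r0
    rwa [e] at this
  · obtain ⟨a', ha, har⟩ := exists_along (revP γ) (ballLoop a) fun v =>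
      (ballLoop_rim a v).trans r0.symm
    obtain ⟨a', rfl⟩ := exists_ballLoop a' fun v => (har v).trans r1
    obtain ⟨b', hb, hbr⟩ := exists_along (revP γ) (ballLoop b) fun v =>
      (ballLoop_rim b v).trans r0.symm
    obtain ⟨b', rfl⟩ := exists_ballLoop b' fun v => (hbr v).trans r1
    have h1 : Along γ (ballLoop a') (ballLoop a) := revP_revP γ ▸ ha.symm
    have h2 : Along γ (ballLoop b') (ballLoop b) := revP_revP γ ▸ hb.symm
    have hk := (h1.map k).conj (h2.map k) (by
      show Along (ContinuousMap.const I (k (γ 1))) _ _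
      rw [g1]
      exact (filler_iff_along (DiscLoop.map k a) (DiscLoop.map k b)).1 hab)
    have e : k.comp γ 0 = k x' := congrArg k g0
    rw [e] at hk
    have h' := h.2 a' b' ((filler_iff_along (DiscLoop.map k a') (DiscLoop.map k b')).2 hk)
    refine (filler_iff_along a b).2 ?_
    have := ha.conj hb (by rw [r1]; exact (filler_iff_along a' b').1 h')
    rwa [r0] at this

/-- A map bijective on components and at all points is a weak homotopy equivalence. -/
theorem isTopWeq_of_bijAt {X Y : CompactlyGenerated.{0, 0}} (f : X ⟶ Y)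
    (h0 : ∀ y, ∃ x, Joined (cmap f x) y) (h : ∀ n x, BijAt (cmap f) n x) : IsTopWeq f := by
  refine ⟨h0, fun n x => ⟨fun c => ?_, fun a b hab => ?_⟩⟩
  · obtain ⟨c, rfl⟩ := (loopEquiv n _ _).surjective c
    obtain ⟨a, ha⟩ := (h n x).1 c
    exact ⟨loopEquiv n _ _ a, (homotopic_loopEquiv_iff (DiscLoop.map (cmap f) a) c).2 ha⟩
  · obtain ⟨a, rfl⟩ := (loopEquiv n _ _).surjective a
    obtain ⟨b, rfl⟩ := (loopEquiv n _ _).surjective b
    exact (homotopic_loopEquiv_iff a b).2 ((h n x).2 a b
      ((homotopic_loopEquiv_iff (DiscLoop.map (cmap f) a) (DiscLoop.map (cmap f) b)).1 hab))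

end

end Vale.Agent.P259
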