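import Vale.Agent.P259.TopCore
import Vale.Agent.P259.Top.Cells

/-!
# P259: extension of maps from the boundary of a cylinder over a ball
-/

namespace Vale.Agent.P259

open CategoryTheory
open scoped Topology unitInterval

noncomputable section

theorem ballDisc_mem_rim {n : ℕ} (v : Ball n) : ballDisc n v ∈ P259.Top.rim n ↔ v ∈ rim n := by
  show ‖(WithLp.toLp 2 v.1 : EuclideanSpace ℝ (Fin n))‖ = 1 ↔ ∑ k, v.1 k ^ 2 = 1
  rw [← pow_left_inj₀ (norm_nonneg _) zero_le_one two_ne_zero, EuclideanSpace.norm_sq_eq,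
    one_pow]
  simp

theorem isClosed_rim (n : ℕ) : IsClosed (rim n) :=
  isClosed_eq (continuous_finsetSum _ fun k _ =>
    ((continuous_apply k).comp continuous_subtype_val).pow 2) continuous_const

instance compactSpace_ball (n : ℕ) : CompactSpace (Ball n) := (ballDisc n).symm.compactSpace

/-- The cube as a cylinder over the cube of one dimension less. -/
def cubeCyl (n : ℕ) : (Fin n → I) × I ≃ₜ (Fin (n + 1) → I) where
  toFun p := Fin.snoc p.1 p.2
  invFun y := (fun i => y i.castSucc, y (Fin.last n))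
  left_inv p := Prod.ext (funext fun i => Fin.snoc_castSucc (α := fun _ => I) p.2 p.1 i)
    (Fin.snoc_last (α := fun _ => I) p.2 p.1)
  right_inv y := funext fun i => by
    induction i using Fin.lastCases with
    | last => exact Fin.snoc_last _ _
    | cast j => exact Fin.snoc_castSucc _ _ _
  continuous_toFun := continuous_pi fun i => by
    induction i using Fin.lastCases with
    | last =>
      simp only [Fin.snoc_last]
      exact continuous_snd
    | cast j =>
      simp only [Fin.snoc_castSucc]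
      exact (continuous_apply j).comp continuous_fst
  continuous_invFun :=
    (continuous_pi fun i => continuous_apply i.castSucc).prodMk (continuous_apply _)

theorem cubeCyl_mem_boundary {n : ℕ} (p : (Fin n → I) × I) :
    cubeCyl n p ∈ Cube.boundary (Fin (n + 1)) ↔
      p.1 ∈ Cube.boundary (Fin n) ∨ p.2 = 0 ∨ p.2 = 1 := by
  constructor
  · rintro ⟨i, hi⟩
    induction i using Fin.lastCases with
    | last => exact Or.inr (by simpa [cubeCyl] using hi)
    | cast j => exact Or.inl ⟨j, by simpa [cubeCyl] using hi⟩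
  · rintro (⟨i, hi⟩ | h)
    · exact ⟨i.castSucc, by simpa [cubeCyl] using hi⟩
    · exact ⟨Fin.last n, by simpa [cubeCyl] using h⟩

/-- A ball as a cube. -/
def ballCube (n : ℕ) : (Fin n → I) ≃ₜ Ball n :=
  (P259.Top.cubeDisc n).trans (ballDisc n).symm

theorem ballCube_mem_rim {n : ℕ} (y : Fin n → I) :
    ballCube n y ∈ rim n ↔ y ∈ Cube.boundary (Fin n) := by
  rw [← ballDisc_mem_rim]
  show ballDisc n ((ballDisc n).symm _) ∈ _ ↔ _
  rw [Homeomorph.apply_symm_apply]
  exact P259.Top.cubeDisc_mem_rim y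

/-- The cylinder over a ball as a ball. -/
def cylBall (n : ℕ) : Ball n × I ≃ₜ Ball (n + 1) :=
  (((ballCube n).symm.prodCongr (Homeomorph.refl I)).trans (cubeCyl n)).trans (ballCube (n + 1))

theorem cylBall_mem_rim {n : ℕ} (p : Ball n × I) :
    cylBall n p ∈ rim (n + 1) ↔ p.1 ∈ rim n ∨ p.2 = 0 ∨ p.2 = 1 := by
  show ballCube (n + 1) (cubeCyl n ((ballCube n).symm p.1, p.2)) ∈ _ ↔ _
  rw [ballCube_mem_rim, cubeCyl_mem_boundary, ← ballCube_mem_rim, Homeomorph.apply_symm_apply]

variable {Z : Type} [TopologicalSpace Z]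

/-- A map of the boundary of a cylinder into a weakly contractible space extends. -/
theorem WC.extend_cyl (hZ : WC Z) {n : ℕ} (f0 f1 : C(Ball n, Z)) (h : C(rim n × I, Z))
    (h0 : ∀ v : rim n, h (v, 0) = f0 v.1) (h1 : ∀ v : rim n, h (v, 1) = f1 v.1) :
    ∃ G : C(Ball n × I, Z), (∀ v, G (v, 0) = f0 v) ∧ (∀ v, G (v, 1) = f1 v) ∧
      ∀ (v : rim n) t, G (v.1, t) = h (v, t) := by
  classical
  let F : Ball n × I → Z := fun p =>
    if hp : p.1 ∈ rim n then h (⟨p.1, hp⟩, p.2) else if p.2 = 0 then f0 p.1 else f1 p.1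
  have e0 : ∀ v, F (v, 0) = f0 v := fun v => by
    by_cases hv : v ∈ rim n
    · simp only [F, dif_pos hv]; exact h0 ⟨v, hv⟩
    · simp [F, dif_neg hv]
  have e1 : ∀ v, F (v, 1) = f1 v := fun v => by
    by_cases hv : v ∈ rim n
    · simp only [F, dif_pos hv]; exact h1 ⟨v, hv⟩
    · simp [F, dif_neg hv]
  have hA : IsClosed {p : Ball n × I | p.1 ∈ rim n} := (isClosed_rim n).preimage continuous_fst
  have hB : ∀ t : I, IsClosed {p : Ball n × I | p.2 = t} := fun t =>
    isClosed_eq continuous_snd continuous_const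
  have hF : ContinuousOn F ({p | p.1 ∈ rim n} ∪ {p | p.2 = 0} ∪ {p | p.2 = 1}) := by
    refine ((ContinuousOn.union_of_isClosed ?_ ?_ hA (hB 0)).union_of_isClosed ?_
      (hA.union (hB 0)) (hB 1))
    · rw [continuousOn_iff_continuous_domRestrict]
      refine (h.continuous.comp (((continuous_fst.comp continuous_subtype_val).subtype_mk
        fun x : {p : Ball n × I | p.1 ∈ rim n} => x.2).prodMk
          (continuous_snd.comp continuous_subtype_val))).congr fun x => ?_
      have hx : x.1.1 ∈ rim n := x.2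
      show h (⟨x.1.1, hx⟩, x.1.2) = F x.1
      simp only [F, dif_pos hx]
    · exact (f0.continuous.comp continuous_fst).continuousOn.congr fun p hp => by
        obtain ⟨v, t⟩ := p
        obtain rfl : t = 0 := hp
        exact e0 v
    · exact (f1.continuous.comp continuous_fst).continuousOn.congr fun p hp => by
        obtain ⟨v, t⟩ := p
        obtain rfl : t = 1 := hp
        exact e1 v
  have hmem : ∀ w : rim (n + 1), (cylBall n).symm w.1 ∈
      ({p | p.1 ∈ rim n} ∪ {p | p.2 = 0} ∪ {p | p.2 = 1} : Set (Ball n × I)) := fun w => by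
    have := (cylBall_mem_rim ((cylBall n).symm w.1)).1 (by rw [Homeomorph.apply_symm_apply]; exact w.2)
    rcases this with h' | h' | h'
    exacts [Or.inl (Or.inl h'), Or.inl (Or.inr h'), Or.inr h']
  obtain ⟨G, hG⟩ := hZ (n + 1) ⟨fun w => F ((cylBall n).symm w.1),
    hF.comp_continuous ((cylBall n).symm.continuous.comp continuous_subtype_val) hmem⟩
  have key : ∀ p : Ball n × I, p.1 ∈ rim n ∨ p.2 = 0 ∨ p.2 = 1 → G (cylBall n p) = F p :=
    fun p hp => (hG ⟨_, (cylBall_mem_rim p).2 hp⟩).trans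
      (congrArg F ((cylBall n).symm_apply_apply p))
  refine ⟨G.comp (cylBall n : C(Ball n × I, Ball (n + 1))), fun v => ?_, fun v => ?_,
    fun v t => ?_⟩
  · exact (key (v, 0) (Or.inr (Or.inl rfl))).trans (e0 v)
  · exact (key (v, 1) (Or.inr (Or.inr rfl))).trans (e1 v)
  · exact (key (v.1, t) (Or.inl v.2)).trans (dif_pos v.2)

omit [TopologicalSpace Z] in
theorem ball_sqrt_le {n : ℕ} (v : Ball n) : Real.sqrt (∑ k, v.1 k ^ 2) ≤ 1 :=
  Real.sqrt_le_one.2 v.2

/-- The scale of the radial retraction of a cylinder onto its bottom and side. -/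
def retrScale {n : ℕ} (p : Ball n × I) : ℝ :=
  max (Real.sqrt (∑ k, p.1.1 k ^ 2)) ((2 - (p.2 : ℝ)) / 2)

theorem retrScale_pos {n : ℕ} (p : Ball n × I) : 0 < retrScale p :=
  lt_max_of_lt_right (by linarith [p.2.2.2])

theorem continuous_retrScale (n : ℕ) : Continuous (retrScale (n := n)) :=
  (Real.continuous_sqrt.comp (continuous_finsetSum _ fun k _ =>
    ((continuous_apply k).comp (continuous_subtype_val.comp continuous_fst)).pow 2)).max
    ((continuous_const.sub (continuous_subtype_val.comp continuous_snd)).div_const 2)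

theorem retrBall_mem {n : ℕ} (p : Ball n × I) :
    ∑ k, ((retrScale p)⁻¹ * p.1.1 k) ^ 2 ≤ 1 := by
  have h0 : (0 : ℝ) ≤ ∑ k, p.1.1 k ^ 2 := Finset.sum_nonneg fun _ _ => sq_nonneg _
  have h1 : ∑ k, p.1.1 k ^ 2 ≤ retrScale p ^ 2 := by
    calc ∑ k, p.1.1 k ^ 2 = Real.sqrt (∑ k, p.1.1 k ^ 2) ^ 2 := (Real.sq_sqrt h0).symm
      _ ≤ retrScale p ^ 2 := pow_le_pow_left₀ (Real.sqrt_nonneg _) (le_max_left _ _) 2
  rw [Finset.sum_congr rfl fun k _ => mul_pow _ _ 2, ← Finset.mul_sum, inv_pow,
    inv_mul_le_iff₀ (pow_pos (retrScale_pos p) 2), mul_one]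
  exact h1

theorem retrTime_mem {n : ℕ} (p : Ball n × I) :
    2 - (2 - (p.2 : ℝ)) / retrScale p ∈ Set.Icc (0 : ℝ) 1 := by
  have hr := retrScale_pos p
  have h1 : (2 - (p.2 : ℝ)) / 2 ≤ retrScale p := le_max_right _ _
  have h2 : retrScale p ≤ 2 - (p.2 : ℝ) :=
    max_le (by linarith [ball_sqrt_le p.1, p.2.2.2]) (by linarith [p.2.2.2])
  constructor
  · rw [sub_nonneg, div_le_iff₀ hr]; linarith
  · rw [sub_le_comm, le_div_iff₀ hr]; linarith

/-- The radial retraction of a cylinder onto its bottom and side. -/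
def retrCyl (n : ℕ) : C(Ball n × I, Ball n × I) where
  toFun p := (⟨fun k => (retrScale p)⁻¹ * p.1.1 k, retrBall_mem p⟩,
    ⟨2 - (2 - (p.2 : ℝ)) / retrScale p, retrTime_mem p⟩)
  continuous_toFun := by
    have hi : Continuous fun p : Ball n × I => (retrScale p)⁻¹ :=
      (continuous_retrScale n).inv₀ fun p => (retrScale_pos p).ne'
    refine (Continuous.subtype_mk (continuous_pi fun k => hi.mul
      ((continuous_apply k).comp (continuous_subtype_val.comp continuous_fst))) _).prodMk
      (Continuous.subtype_mk (continuous_const.sub ((continuous_const.sub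
        (continuous_subtype_val.comp continuous_snd)).div (continuous_retrScale n)
          fun p => (retrScale_pos p).ne')) _)

theorem retrCyl_mem {n : ℕ} (p : Ball n × I) :
    (retrCyl n p).1 ∈ rim n ∨ (retrCyl n p).2 = 0 := by
  have h0 : (0 : ℝ) ≤ ∑ k, p.1.1 k ^ 2 := Finset.sum_nonneg fun _ _ => sq_nonneg _
  have hr := retrScale_pos p
  rcases max_choice (Real.sqrt (∑ k, p.1.1 k ^ 2)) ((2 - (p.2 : ℝ)) / 2) with h | h
  · refine Or.inl ?_
    show ∑ k, ((retrScale p)⁻¹ * p.1.1 k) ^ 2 = 1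
    have hs : retrScale p ^ 2 = ∑ k, p.1.1 k ^ 2 := by
      rw [show retrScale p = _ from h, Real.sq_sqrt h0]
    rw [Finset.sum_congr rfl fun k _ => mul_pow _ _ 2, ← Finset.mul_sum, inv_pow, ← hs,
      inv_mul_cancel₀ (pow_ne_zero 2 hr.ne')]
  · refine Or.inr (Subtype.ext ?_)
    show 2 - (2 - (p.2 : ℝ)) / retrScale p = 0
    have hne : (2 : ℝ) - (p.2 : ℝ) ≠ 0 := by linarith [p.2.2.2]
    rw [show retrScale p = _ from h, div_div_eq_mul_div, mul_div_cancel_left₀ _ hne, sub_self]

theorem retrCyl_fix {n : ℕ} (p : Ball n × I) (hp : p.1 ∈ rim n ∨ p.2 = 0) :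
    retrCyl n p = p := by
  have h1 : retrScale p = 1 := by
    unfold retrScale
    rcases hp with h | h
    · rw [show ∑ k, p.1.1 k ^ 2 = 1 from h, Real.sqrt_one]
      exact max_eq_left (by linarith [p.2.2.1])
    · rw [h]
      simpa using ball_sqrt_le p.1
  refine Prod.ext (Subtype.ext (funext fun k => ?_)) (Subtype.ext ?_)
  · show (retrScale p)⁻¹ * p.1.1 k = p.1.1 k
    rw [h1, inv_one, one_mul]
  · show 2 - (2 - (p.2 : ℝ)) / retrScale p = (p.2 : ℝ)
    rw [h1]
    ring

/-- A homotopy given on the sphere and a map of the ball extend to a homotopy, in any space. -/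
theorem exists_cyl_lift {n : ℕ} (f0 : C(Ball n, Z)) (h : C(rim n × I, Z))
    (h0 : ∀ v : rim n, h (v, 0) = f0 v.1) :
    ∃ G : C(Ball n × I, Z), (∀ v, G (v, 0) = f0 v) ∧ ∀ (v : rim n) t, G (v.1, t) = h (v, t) := by
  classical
  let F : Ball n × I → Z := fun p =>
    if hp : p.1 ∈ rim n then h (⟨p.1, hp⟩, p.2) else f0 p.1
  have e0 : ∀ v, F (v, 0) = f0 v := fun v => by
    by_cases hv : v ∈ rim n
    · simp only [F, dif_pos hv]; exact h0 ⟨v, hv⟩
    · simp [F, dif_neg hv]
  have hF : ContinuousOn F ({p | p.1 ∈ rim n} ∪ {p | p.2 = 0}) := by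
    refine ContinuousOn.union_of_isClosed ?_ ?_ ((isClosed_rim n).preimage continuous_fst)
      (isClosed_eq continuous_snd continuous_const)
    · rw [continuousOn_iff_continuous_domRestrict]
      refine (h.continuous.comp (((continuous_fst.comp continuous_subtype_val).subtype_mk
        fun x : {p : Ball n × I | p.1 ∈ rim n} => x.2).prodMk
          (continuous_snd.comp continuous_subtype_val))).congr fun x => ?_
      have hx : x.1.1 ∈ rim n := x.2
      show h (⟨x.1.1, hx⟩, x.1.2) = F x.1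
      simp only [F, dif_pos hx]
    · exact (f0.continuous.comp continuous_fst).continuousOn.congr fun p hp => by
        obtain ⟨v, t⟩ := p
        obtain rfl : t = 0 := hp
        exact e0 v
  refine ⟨⟨fun p => F (retrCyl n p), hF.comp_continuous (retrCyl n).continuous fun p => ?_⟩,
    fun v => ?_, fun v t => ?_⟩
  · rcases retrCyl_mem p with h' | h'
    exacts [Or.inl h', Or.inr h']
  · show F (retrCyl n (v, 0)) = f0 v
    rw [retrCyl_fix (v, 0) (Or.inr rfl)]
    exact e0 v
  · show F (retrCyl n (v.1, t)) = h (v, t)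
    rw [retrCyl_fix (v.1, t) (Or.inl v.2)]
    exact dif_pos v.2

end

end Vale.Agent.P259
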