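import Vale.Agent.P259.Final.Natural
import Vale.Agent.P259.Final.Extend
import Vale.Agent.P259.Pi.Ball
import Vale.Agent.P259.Glob.Rec

/-!
# P259: cylinders between discs and realisations of representables, functorial on the coherator
-/

namespace Vale.Agent.P259

open CategoryTheory Opposite
open scoped Topology unitInterval

noncomputable section

namespace CylData

variable {C : Coherator} (c : CylData C)

/-- The identification at the end of the cylinder. -/
inductive CylRel (T : Table) : (c.D.space T × I) ⊕ c.L T → (c.D.space T × I) ⊕ c.L T → Prop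
  | glue (y : c.D.space T) : CylRel T (Sum.inl (y, 1)) (Sum.inr (c.jt T y))

/-- The cylinder of the natural map. -/
def P (T : Table) : Type := Quot (c.CylRel T)

instance (T : Table) : TopologicalSpace (c.P T) :=
  inferInstanceAs (TopologicalSpace (Quot (c.CylRel T)))

/-- The cylinder part. -/
def inL (T : Table) : C(c.D.space T × I, c.P T) :=
  ⟨fun p => Quot.mk _ (Sum.inl p), continuous_quot_mk.comp continuous_inl⟩

/-- The end part. -/
def inR (T : Table) : C(c.L T, c.P T) :=
  ⟨fun p => Quot.mk _ (Sum.inr p), continuous_quot_mk.comp continuous_inr⟩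

theorem inL_one {T : Table} (y : c.D.space T) : c.inL T (y, 1) = c.inR T (c.jt T y) :=
  Quot.sound (CylRel.glue y)

variable {Z : Type} [TopologicalSpace Z]

/-- A map out of the cylinder. -/
def desc {T : Table} (f : C(c.D.space T × I, Z)) (g : C(c.L T, Z))
    (h : ∀ y, f (y, 1) = g (c.jt T y)) : C(c.P T, Z) where
  toFun := Quot.lift (Sum.elim f g) (fun _ _ r => by cases r; exact h _)
  continuous_toFun := continuous_quot_lift _ (f.continuous.sumElim g.continuous)

theorem cyl_ext {T : Table} {a b : C(c.P T, Z)} (hl : ∀ p, a (c.inL T p) = b (c.inL T p))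
    (hr : ∀ q, a (c.inR T q) = b (c.inR T q)) : a = b := by
  refine ContinuousMap.ext fun x => ?_
  induction x using Quot.ind with
  | _ x =>
    cases x with
    | inl p => exact hl p
    | inr q => exact hr q

/-- Sliding towards the end of the cylinder. -/
def slide (t s : I) : I := ⟨(t : ℝ) + (s : ℝ) * (1 - t), by
  constructor <;> nlinarith [t.2.1, t.2.2, s.2.1, s.2.2]⟩

theorem continuous_slide : Continuous fun p : I × I => slide p.1 p.2 := by
  unfold slide
  fun_prop

/-- The deformation of the cylinder onto its end. -/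
def retractFun (T : Table) : ((c.D.space T × I) ⊕ c.L T) × I → c.P T
  | (Sum.inl (y, t), s) => c.inL T (y, slide t s)
  | (Sum.inr q, _) => c.inR T q

theorem wc_P {T : Table} (h : WC (c.L T)) : WC (c.P T) := by
  have hq : Topology.IsQuotientMap (Quot.mk (c.CylRel T)) := isQuotientMap_quot_mk
  let R : c.P T × I → c.P T := fun p =>
    Quot.lift (fun x => c.retractFun T (x, p.2)) (fun _ _ r => by
      cases r with
      | glue y =>
        show c.inL T (y, slide 1 p.2) = c.inR T (c.jt T y)
        rw [show slide 1 p.2 = 1 from Subtype.ext (by simp [slide]), inL_one]) p.1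
  have hR : Continuous R := by
    refine hq.continuous_lift_prod_left ?_
    show Continuous (c.retractFun T)
    refine (Homeomorph.sumProdDistrib.symm.isQuotientMap.continuous_iff).2 ?_
    refine continuous_sum_dom.2 ⟨?_, ?_⟩
    · show Continuous fun p : (c.D.space T × I) × I => c.inL T (p.1.1, slide p.1.2 p.2)
      exact (c.inL T).continuous.comp ((continuous_fst.comp continuous_fst).prodMk
        (continuous_slide.comp ((continuous_snd.comp continuous_fst).prodMk continuous_snd)))
    · exact (c.inR T).continuous.comp continuous_fst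
  let r : C(c.P T, c.L T) := c.desc ((c.jt T).comp ⟨Prod.fst, continuous_fst⟩)
    (ContinuousMap.id _) (fun _ => rfl)
  have hR1 : ∀ x, R (x, 1) = c.inR T (r x) := fun x => by
    induction x using Quot.ind with
    | _ x =>
      cases x with
      | inl p =>
        show c.inL T (p.1, slide p.2 1) = c.inR T (c.jt T p.1)
        rw [show slide p.2 1 = 1 from Subtype.ext (by simp [slide]), inL_one]
      | inr q => rfl
  have hR0 : ∀ x, R (x, 0) = x := fun x => by
    induction x using Quot.ind with
    | _ x =>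
      cases x with
      | inl p =>
        show c.inL T (p.1, slide p.2 0) = c.inL T p
        rw [show slide p.2 0 = p.2 from Subtype.ext (by simp [slide])]
      | inr q => rfl
  intro k f
  obtain ⟨F, hF⟩ := h k (r.comp f)
  obtain ⟨G, hG0, hG⟩ := exists_cyl_lift ((c.inR T).comp F)
    ⟨fun p : rim k × I => R (f p.1, unitInterval.symm p.2), hR.comp
      ((f.continuous.comp continuous_fst).prodMk
        (unitInterval.continuous_symm.comp continuous_snd))⟩ (fun v => by
      show R (f v, unitInterval.symm 0) = c.inR T (F v.1)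
      rw [unitInterval.symm_zero, hR1, hF]
      rfl)
  refine ⟨⟨fun v => G (v, 1), G.continuous.comp (continuous_id.prodMk continuous_const)⟩,
    fun v => (hG v 1).trans ?_⟩
  show R (f v, unitInterval.symm 1) = f v
  rw [unitInterval.symm_one, hR0]

/-- A morphism of cylinders over a map of the coherator. -/
@[ext]
structure CylHom (S T : Table) : Type where
  φ : C.C.M S T
  H : C(c.D.space S × I, c.P T)
  h0 : ∀ y, H (y, 0) = c.inL T (c.D.mapC φ y, 0)
  h1 : ∀ y, H (y, 1) = c.inR T (c.lMap φ (c.jt S y))

namespace CylHom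

variable {c} {R S T U : Table}

/-- The map of cylinders. -/
def map (f : CylHom c S T) : C(c.P S, c.P T) :=
  c.desc f.H ((c.inR T).comp (c.lMap f.φ)) f.h1

/-- The identity. -/
def idHom (T : Table) : CylHom c T T where
  φ := 𝟙 _
  H := c.inL T
  h0 y := by rw [c.D.mapC_id]; rfl
  h1 y := by rw [c.lMap_id]; exact c.inL_one y

/-- The composite. -/
def compHom (f : CylHom c S T) (g : CylHom c T U) : CylHom c S U where
  φ := f.φ ≫ g.φ
  H := g.map.comp f.H
  h0 y := by
    show g.map (f.H (y, 0)) = _
    rw [f.h0, c.D.mapC_comp]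
    exact g.h0 _
  h1 y := by
    show g.map (f.H (y, 1)) = _
    rw [f.h1, c.lMap_comp]
    rfl

theorem map_comp (f : CylHom c S T) (g : CylHom c T U) :
    (f.compHom g).map = g.map.comp f.map := by
  refine c.cyl_ext (fun p => rfl) fun q => ?_
  show c.inR U (c.lMap (f.φ ≫ g.φ) q) = c.inR U (c.lMap g.φ (c.lMap f.φ q))
  rw [c.lMap_comp]
  rfl

theorem map_id (T : Table) : (idHom (c := c) T).map = ContinuousMap.id _ := by
  refine c.cyl_ext (fun p => rfl) fun q => ?_
  show c.inR T (c.lMap (𝟙 _) q) = c.inR T q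
  rw [c.lMap_id]
  rfl

theorem id_compHom (f : CylHom c S T) : (idHom S).compHom f = f :=
  CylHom.ext (Category.id_comp _) rfl

theorem compHom_id (f : CylHom c S T) : f.compHom (idHom T) = f :=
  CylHom.ext (Category.comp_id _) (by show (idHom T).map.comp f.H = f.H; rw [map_id]; rfl)

theorem compHom_assoc (f : CylHom c R S) (g : CylHom c S T) (h : CylHom c T U) :
    (f.compHom g).compHom h = f.compHom (g.compHom h) :=
  CylHom.ext (Category.assoc _ _ _) (by
    show h.map.comp (g.map.comp f.H) = (g.compHom h).map.comp f.H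
    rw [map_comp, ContinuousMap.comp_assoc])

/-- The morphism of cylinders of a map of globular sums. -/
def ofTable (g : S ⟶ T) : CylHom c S T where
  φ := C.C.i.map g
  H := (c.inL T).comp
    ⟨fun p => (c.D.mapC (C.C.i.map g) p.1, p.2),
      ((c.D.mapC (C.C.i.map g)).continuous.comp continuous_fst).prodMk continuous_snd⟩
  h0 _ := rfl
  h1 y := (c.inL_one _).trans (congrArg (c.inR T) (DFunLike.congr_fun (c.jt_nat g) y))

end CylHom

/-- The cylinders as a category over the coherator. -/
structure CylObj (c : CylData C) : Type 1 where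
  ob : ULift.{1, 0} Table

instance cylCategory : Category c.CylObj where
  Hom a b := CylHom c a.ob.down b.ob.down
  id a := CylHom.idHom a.ob.down
  comp f g := CylHom.compHom f g
  id_comp := CylHom.id_compHom
  comp_id := CylHom.compHom_id
  assoc := CylHom.compHom_assoc

/-- The globular sums in cylinders. -/
def cylOb : Table ⥤ c.CylObj where
  obj T := ⟨⟨T⟩⟩
  map g := CylHom.ofTable g
  map_id T := CylHom.ext (C.C.i.map_id T) (ContinuousMap.ext fun p => by
    show c.inL T (c.D.mapC (C.C.i.map (𝟙 T)) p.1, p.2) = c.inL T p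
    rw [C.C.i.map_id, c.D.mapC_id]
    rfl)
  map_comp {R S T} f g := CylHom.ext (C.C.i.map_comp f g) (ContinuousMap.ext fun p => by
    show c.inL T (c.D.mapC (C.C.i.map (f ≫ g)) p.1, p.2) =
      c.inL T (c.D.mapC (C.C.i.map g) (c.D.mapC (C.C.i.map f) p.1), p.2)
    rw [C.C.i.map_comp, c.D.mapC_comp]
    rfl)

/-- The projection to the coherator. -/
def cylProj : c.CylObj ⥤ C.C.Obj where
  obj a := C.C.i.obj a.ob.down
  map f := CylHom.φ f

theorem cylOb_comp_H {R S : Table} {a : c.CylObj} (g : R ⟶ S) (f : c.cylOb.obj S ⟶ a)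
    (p : c.D.space R × I) :
    CylHom.H (c.cylOb.map g ≫ f) p = CylHom.H f (c.D.mapC (C.C.i.map g) p.1, p.2) :=
  rfl

theorem cyl_sums : PreservesSums c.cylOb := by
  intro T Z f hf
  obtain ⟨φ, hφ, hφu⟩ := C.C.sums T (C.C.i.obj Z.ob.down) (fun p => CylHom.φ (f p))
    (fun p => congrArg CylHom.φ (hf p))
  obtain ⟨G, hG, hGu⟩ := c.D.exists_glue T (fun p => (CylHom.H (f p)).curry) (fun p => by
    refine ContinuousMap.ext fun y => ContinuousMap.ext fun t => ?_
    exact DFunLike.congr_fun (congrArg CylHom.H (hf p)) (y, t))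
  have hcur : ∀ p y t, G (c.D.mapC (C.C.i.map (incl T p)) y) t = CylHom.H (f p) (y, t) :=
    fun p y t => DFunLike.congr_fun (DFunLike.congr_fun (hG p) y) t
  have e0 : ∀ y, G y 0 = c.inL Z.ob.down (c.D.mapC φ y, 0) := fun y => by
    have := c.D.space_ext (T := T)
      (a := ⟨fun y => G y 0, (continuous_eval_const (0 : I)).comp G.continuous⟩)
      (b := (c.inL Z.ob.down).comp ⟨fun y => (c.D.mapC φ y, 0),
        (c.D.mapC φ).continuous.prodMk continuous_const⟩) fun p => ContinuousMap.ext fun y => by
        show G (c.D.mapC (C.C.i.map (incl T p)) y) 0 = _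
        rw [hcur]
        refine (CylHom.h0 (f p) y).trans (congrArg (fun z => c.inL Z.ob.down (z, 0)) ?_)
        exact (DFunLike.congr_fun (congrArg (fun g : C.C.M (disc (T.top p)) Z.ob.down =>
          c.D.mapC g) (hφ p)) y).symm.trans (DFunLike.congr_fun (c.D.mapC_comp _ _) y)
    exact DFunLike.congr_fun this y
  have e1 : ∀ y, G y 1 = c.inR Z.ob.down (c.lMap φ (c.jt T y)) := fun y => by
    have := c.D.space_ext (T := T)
      (a := ⟨fun y => G y 1, (continuous_eval_const (1 : I)).comp G.continuous⟩)
      (b := (c.inR Z.ob.down).comp ((c.lMap φ).comp (c.jt T))) fun p => ContinuousMap.ext fun y => by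
        show G (c.D.mapC (C.C.i.map (incl T p)) y) 1 = _
        rw [hcur]
        refine (CylHom.h1 (f p) y).trans (congrArg (c.inR Z.ob.down) ?_)
        refine ((DFunLike.congr_fun (congrArg (fun g : C.C.M (disc (T.top p)) Z.ob.down =>
          c.lMap g) (hφ p)) _).symm.trans (DFunLike.congr_fun (c.lMap_comp _ _) _)).trans ?_
        exact congrArg (c.lMap φ) (DFunLike.congr_fun (c.jt_nat (incl T p)) y).symm
    exact DFunLike.congr_fun this y
  refine ⟨(⟨φ, G.uncurry, e0, e1⟩ : CylHom c T Z.ob.down),
    fun p => CylHom.ext (hφ p) (ContinuousMap.ext fun q => hcur p q.1 q.2), fun k hk => ?_⟩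
  refine CylHom.ext (hφu _ fun p => congrArg CylHom.φ (hk p)) ?_
  have hcu : (CylHom.H k).curry = G := hGu _ fun p =>
    ContinuousMap.ext fun y => ContinuousMap.ext fun t =>
      DFunLike.congr_fun (congrArg CylHom.H (hk p)) (y, t)
  show CylHom.H k = G.uncurry
  rw [← hcu]
  rfl

/-- The cylinders, displayed over the coherator. -/
def displayed : Glob.Displayed C.C where
  K := c.CylObj
  ob := c.cylOb
  sums := c.cyl_sums
  proj := c.cylProj
  proj_ob := rfl

theorem homeo_face (e : Bool) {n : ℕ} (v : Ball n) :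
    (c.D.homeo (n + 1)).symm (hemi e n v) =
      c.D.mapC (C.C.face e n) ((c.D.homeo n).symm v) := by
  refine (c.D.homeo (n + 1)).injective ?_
  rw [Homeomorph.apply_symm_apply]
  refine Subtype.ext ?_
  refine Eq.trans ?_ (c.D.hemi n e ((c.D.homeo n).symm v)).symm
  rw [Homeomorph.apply_symm_apply]
  rfl

theorem hasLifts (hWC : ∀ T, WC (c.L T)) : c.displayed.HasLifts := by
  intro n T _ f g hpar h hf hg
  have hcompat : ∀ v ∈ rim n, ∀ t : I, CylHom.H f ((c.D.homeo n).symm v, t) =
      CylHom.H g ((c.D.homeo n).symm v, t) := by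
    cases n with
    | zero => exact fun v hv => absurd hv (by simp [Ball.rim_zero])
    | succ m =>
      intro v hv t
      obtain ⟨e, w, rfl⟩ := Ball.exists_hemi hv
      rw [c.homeo_face]
      exact DFunLike.congr_fun (congrArg CylHom.H (hpar m rfl m.lt_succ_self e))
        ((c.D.homeo m).symm w, t)
  let side' : Bool → CylHom c (disc n) T := fun e => if e then g else f
  have hside : ∀ e, C.C.face e n ≫ h = (side' e).φ := fun e => by
    cases e
    exacts [eq_of_heq hf, eq_of_heq hg]
  let hs : Bool → C(Ball n × I, c.P T) := fun e => (side' e).H.comp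
    ⟨fun p => ((c.D.homeo n).symm p.1, p.2),
      ((c.D.homeo n).symm.continuous.comp continuous_fst).prodMk continuous_snd⟩
  obtain ⟨s, hsg⟩ := Ball.exists_glue hs hcompat
  let hsym : C(Ball (n + 1), c.D.space (disc (n + 1))) :=
    ((c.D.homeo (n + 1)).symm : C(Ball (n + 1), c.D.space (disc (n + 1))))
  let f0 : C(Ball (n + 1), c.P T) := (c.inL T).comp
    ⟨fun v => (c.D.mapC h (hsym v), 0),
      ((c.D.mapC h).continuous.comp hsym.continuous).prodMk continuous_const⟩
  let f1 : C(Ball (n + 1), c.P T) :=
    (c.inR T).comp ((c.lMap h).comp ((c.jt (disc (n + 1))).comp hsym))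
  obtain ⟨G, hG0, hG1, hGs⟩ := (c.wc_P (hWC T)).extend_cyl f0 f1 s
    (fun v => by
      obtain ⟨e, w, hw⟩ := Ball.exists_hemi v.2
      obtain rfl : v = ⟨hemi e n w, Ball.hemi_mem_rim e w⟩ := Subtype.ext hw.symm
      refine (hsg e w 0).trans (((side' e).h0 _).trans ?_)
      show c.inL T (c.D.mapC (side' e).φ ((c.D.homeo n).symm w), 0) =
        c.inL T (c.D.mapC h ((c.D.homeo (n + 1)).symm (hemi e n w)), 0)
      rw [← hside e, c.D.mapC_comp, c.homeo_face]
      rfl)
    (fun v => by
      obtain ⟨e, w, hw⟩ := Ball.exists_hemi v.2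
      obtain rfl : v = ⟨hemi e n w, Ball.hemi_mem_rim e w⟩ := Subtype.ext hw.symm
      refine (hsg e w 1).trans (((side' e).h1 _).trans ?_)
      show c.inR T (c.lMap (side' e).φ (c.jt (disc n) ((c.D.homeo n).symm w))) =
        c.inR T (c.lMap h (c.jt (disc (n + 1)) ((c.D.homeo (n + 1)).symm (hemi e n w))))
      rw [← hside e, c.lMap_comp, c.homeo_face]
      exact congrArg (fun q => c.inR T (c.lMap h q))
        (DFunLike.congr_fun (c.jt_nat (side e n.lt_succ_self)) ((c.D.homeo n).symm w)).symm)
  let k : CylHom c (disc (n + 1)) T :=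
    { φ := h
      H := G.comp ⟨fun p => (c.D.homeo (n + 1) p.1, p.2),
        ((c.D.homeo (n + 1)).continuous.comp continuous_fst).prodMk continuous_snd⟩
      h0 := fun y => (hG0 _).trans (by simp [f0, hsym])
      h1 := fun y => (hG1 _).trans (by simp [f1, hsym]) }
  have hk : ∀ e, CylHom.compHom (CylHom.ofTable (side e n.lt_succ_self)) k = side' e := fun e =>
    CylHom.ext (hside e) (ContinuousMap.ext fun p => by
      obtain ⟨y, t⟩ := p
      show G (c.D.homeo (n + 1) (c.D.mapC (C.C.face e n) y), t) = (side' e).H (y, t)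
      obtain ⟨w, rfl⟩ := (c.D.homeo n).symm.surjective y
      rw [← c.homeo_face, Homeomorph.apply_symm_apply]
      exact (hGs ⟨_, Ball.hemi_mem_rim e w⟩ t).trans (hsg e w t))
  exact ⟨k, hk false, hk true, HEq.rfl⟩

/-- A functorial choice of cylinder maps over the coherator. -/
theorem exists_cylinder (hWC : ∀ T, WC (c.L T)) :
    ∃ H : ∀ {S T : Table} (_ : C.C.M S T), CylHom c S T,
      (∀ {S T : Table} (g : C.C.M S T), (H g).φ = g) ∧
      (∀ {R S T : Table} (f : C.C.M R S) (g : C.C.M S T), H (f ≫ g) = (H f).compHom (H g)) ∧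
      ∀ {S T : Table} (g : S ⟶ T), H (C.C.i.map g) = CylHom.ofTable g := by
  obtain ⟨G, hG, hP⟩ := Glob.exists_section (c.hasLifts hWC)
  have ho : ∀ T, G.obj (C.C.i.obj T) = c.cylOb.obj T := CategoryTheory.Functor.congr_obj hG
  let H : ∀ {S T : Table}, C.C.M S T → CylHom c S T := fun {S T} g =>
    Glob.recast (ho S).symm (ho T) (G.map g)
  refine ⟨H, fun {S T} g => ?_, fun {R S T} f g => ?_, fun {S T} g => ?_⟩
  · refine eq_of_heq ((Glob.heq_map_of_heq c.cylProj (ho S).symm (ho T).symm
      (Glob.recast_heq (ho S).symm (ho T) (G.map g))).trans ?_)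
    exact Glob.heq_map_functor hP g
  · show Glob.recast _ _ (G.map (f ≫ g)) =
      Glob.recast (ho R).symm (ho S) (G.map f) ≫ Glob.recast (ho S).symm (ho T) (G.map g)
    exact eq_of_heq ((Glob.recast_heq _ _ _).trans ((heq_of_eq (G.map_comp f g)).trans
      (Glob.heq_comp (ho R) (ho S) (ho T) (Glob.recast_heq _ _ _).symm
        (Glob.recast_heq _ _ _).symm)))
  · exact eq_of_heq ((Glob.recast_heq _ _ _).trans (Glob.heq_map_functor hG g))

end CylData

end

end Vale.Agent.P259
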