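import Vale.Agent.P259.Spec
import Vale.Agent.P259.Glob.Table

/-!
# P259: maps out of the values of a disc functor are glued from maps out of discs
-/

namespace Vale.Agent.P259

open CategoryTheory Opposite
open scoped Topology unitInterval

noncomputable section

variable {E : Ext}

/-- The value of a disc functor at a globular sum. -/
abbrev DiscFunctor.space (D : DiscFunctor E) (T : Table) : Type := (D.D.obj (E.i.obj T)).toTop

/-- The action of a map on the values of a disc functor. -/
abbrev DiscFunctor.mapC (D : DiscFunctor E) {S T : Table} (g : E.M S T) :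
    C(D.space S, D.space T) :=
  cmap (D.D.map g)

theorem DiscFunctor.mapC_comp (D : DiscFunctor E) {R S T : Table} (f : E.M R S) (g : E.M S T) :
    D.mapC (f ≫ g) = (D.mapC g).comp (D.mapC f) := by
  simp only [DiscFunctor.mapC, cmap, D.D.map_comp]
  rfl

theorem DiscFunctor.mapC_id (D : DiscFunctor E) (T : Table) :
    D.mapC (𝟙 (E.i.obj T)) = ContinuousMap.id (D.space T) := by
  simp only [DiscFunctor.mapC, cmap, D.D.map_id]
  rfl

theorem incl_glue_table (T : Table) (p : Fin T.len) :
    side true (T.lt_left p) ≫ incl T p.castSucc = side false (T.lt_right p) ≫ incl T p.succ :=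
  Glob.disc_hom_ext (Quot.sound (Table.Rel.glue p (𝟙 _)))

theorem Ext.incl_glue (E : Ext) (T : Table) (p : Fin T.len) :
    E.i.map (side true (T.lt_left p)) ≫ E.i.map (incl T p.castSucc) =
      E.i.map (side false (T.lt_right p)) ≫ E.i.map (incl T p.succ) := by
  rw [← E.i.map_comp, ← E.i.map_comp, incl_glue_table]

section

variable {Z : Type} [tZ : TopologicalSpace Z]

/-- A space with the compactly generated topology. -/
def KSpace (Z : Type) : Type := Z

instance (Z : Type) [TopologicalSpace Z] : TopologicalSpace (KSpace Z) :=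
  TopologicalSpace.compactlyGenerated.{0} Z

/-- The probe of the compactly generated topology. -/
def kProbe (Z : Type) [TopologicalSpace Z] :
    (Σ i : (S : CompHaus.{0}) × C(S, Z), i.fst) → KSpace Z :=
  fun p => p.1.2 p.2

theorem continuous_kProbe (Z : Type) [TopologicalSpace Z] : Continuous (kProbe Z) :=
  continuous_coinduced_rng

instance (Z : Type) [TopologicalSpace Z] : UCompactlyGeneratedSpace.{0} (KSpace Z) :=
  uCompactlyGeneratedSpace_of_coinduced (continuous_kProbe Z) rfl

/-- The underlying point. -/
def KSpace.val {Z : Type} (z : KSpace Z) : Z := z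

/-- A point with the finer topology. -/
def KSpace.mk {Z : Type} (z : Z) : KSpace Z := z

/-- The comparison with the original topology. -/
def kId (Z : Type) [TopologicalSpace Z] : C(KSpace Z, Z) where
  toFun := KSpace.val
  continuous_toFun := continuous_coinduced_dom.2 (continuous_sigma fun i => i.2.continuous)

theorem continuous_into_k {K : Type} [TopologicalSpace K] [CompactSpace K] [T2Space K]
    (f : C(K, Z)) : Continuous (fun k : K => KSpace.mk (f k)) := by
  refine continuous_def.2 fun s hs => ?_
  exact (isOpen_sigma_iff.1 (isOpen_coinduced.1 hs)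
    (⟨CompHaus.of K, f⟩ : (S : CompHaus.{0}) × C(S, Z)) :)

theorem exists_k_object (Z : Type) [TopologicalSpace Z] :
    ∃ (K : CompactlyGenerated.{0, 0}) (e : C(K.toTop, Z)), Function.Bijective e ∧
      ∀ (Q : Type) [TopologicalSpace Q] [CompactSpace Q] [T2Space Q] (f : C(Q, Z)),
        ∃ f' : C(Q, K.toTop), e.comp f' = f :=
  ⟨CompactlyGenerated.of (KSpace Z), kId Z, Function.bijective_id,
    fun _ _ _ _ f => ⟨(⟨fun k => KSpace.mk (f k), continuous_into_k f⟩ : C(_, KSpace Z)), rfl⟩⟩

/-- Maps out of the value at a globular sum are glued from maps out of discs. -/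
theorem DiscFunctor.exists_glue (D : DiscFunctor E) (T : Table)
    (f : ∀ p, C(D.space (disc (T.top p)), Z))
    (hf : ∀ p : Fin T.len, (f p.castSucc).comp (D.mapC (E.i.map (side true (T.lt_left p)))) =
      (f p.succ).comp (D.mapC (E.i.map (side false (T.lt_right p))))) :
    ∃! g : C(D.space T, Z), ∀ p, g.comp (D.mapC (E.i.map (incl T p))) = f p := by
  obtain ⟨K, e, he, hK⟩ := exists_k_object Z
  have hlift : ∀ p, ∃ f' : C(D.space (disc (T.top p)), K.toTop), e.comp f' = f p := fun p => by
    have : CompactSpace (D.space (disc (T.top p))) := by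
      have : CompactSpace (Ball (T.top p)) := by
        refine isCompact_iff_compactSpace.1 (Metric.isCompact_of_isClosed_isBounded ?_ ?_)
        · exact isClosed_le (continuous_finsetSum _ fun k _ => (continuous_apply k).pow 2)
            continuous_const
        · refine (Metric.isBounded_iff_subset_closedBall 0).2 ⟨1, fun v hv => ?_⟩
          rw [Metric.mem_closedBall, dist_zero_right, pi_norm_le_iff_of_nonneg zero_le_one]
          intro k
          have h1 : v k ^ 2 ≤ 1 :=
            le_trans (Finset.single_le_sum (f := fun k => v k ^ 2) (fun i _ => sq_nonneg _)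
              (Finset.mem_univ k)) hv
          exact Real.norm_eq_abs (v k) ▸ (sq_le_one_iff_abs_le_one (v k)).1 h1
      exact (D.homeo _).symm.compactSpace
    have : T2Space (D.space (disc (T.top p))) := (D.homeo _).symm.t2Space
    exact hK _ (f p)
  choose f' hf' using hlift
  have hinj : ∀ {Q : Type} [TopologicalSpace Q] {a b : C(Q, K.toTop)}, e.comp a = e.comp b → a = b :=
    fun {Q} _ a b h => ContinuousMap.ext fun q => he.1 (DFunLike.congr_fun h q)
  obtain ⟨g, hg, hu⟩ := D.sums T K (fun p => ConcreteCategory.ofHom (f' p)) (fun p => by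
    refine ConcreteCategory.hom_ext _ _ fun y => ?_
    refine he.1 ?_
    exact ((DFunLike.congr_fun (hf' p.castSucc) _).trans
      (DFunLike.congr_fun (hf p) y)).trans (DFunLike.congr_fun (hf' p.succ) _).symm)
  refine ⟨e.comp (cmap g), fun p => ?_, fun k hk => ?_⟩
  · have : (cmap g).comp (D.mapC (E.i.map (incl T p))) = f' p :=
      congrArg cmap (hg p)
    rw [ContinuousMap.comp_assoc, this, hf']
  · have hk' : ∀ y, ∃ z, e z = k y := fun y => he.2 _
    choose k' hk'' using hk'
    have hc : Continuous k' := by
      refine continuous_from_uCompactlyGeneratedSpace.{0} k' fun S q => ?_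
      obtain ⟨q', hq'⟩ := hK S (k.comp q)
      have : k' ∘ q = q' := funext fun s => he.1 ((hk'' _).trans (DFunLike.congr_fun hq' s).symm)
      rw [this]
      exact q'.continuous
    have := hu (ConcreteCategory.ofHom ⟨k', hc⟩) fun p => ConcreteCategory.hom_ext _ _ fun y =>
      he.1 ((hk'' _).trans ((DFunLike.congr_fun (hk p) y).trans (DFunLike.congr_fun (hf' p) y).symm))
    rw [← this]
    exact ContinuousMap.ext fun y => (hk'' y).symm

theorem DiscFunctor.space_ext (D : DiscFunctor E) {T : Table} {a b : C(D.space T, Z)}
    (h : ∀ p, a.comp (D.mapC (E.i.map (incl T p))) = b.comp (D.mapC (E.i.map (incl T p)))) :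
    a = b := by
  obtain ⟨g, -, hu⟩ := D.exists_glue T (fun p => b.comp (D.mapC (E.i.map (incl T p)))) (fun p => by
    rw [ContinuousMap.comp_assoc, ContinuousMap.comp_assoc, ← D.mapC_comp, ← D.mapC_comp,
      E.incl_glue])
  exact (hu a h).trans (hu b fun p => rfl).symm

end

end

end Vale.Agent.P259
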