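import Vale.Agent.P259.Final.Cylinder

/-!
# P259: the cylinder model of a groupoid over its realisation
-/

namespace Vale.Agent.P259

open CategoryTheory Opposite
open scoped Topology unitInterval

noncomputable section

/-- A presheaf on a category with chosen globular sums sends them to fibre products. -/
def GluesOn {K : Type*} [Category K] (ob : Table ⥤ K) (F : Kᵒᵖ ⥤ Type) : Prop :=
  ∀ (T : Table) (c : ∀ p, F.obj (op (ob.obj (disc (T.top p))))),
    (∀ p : Fin T.len, F.map (ob.map (side true (T.lt_left p))).op (c p.castSucc) =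
      F.map (ob.map (side false (T.lt_right p))).op (c p.succ)) →
    ∃! x : F.obj (op (ob.obj T)), ∀ p, F.map (ob.map (incl T p)).op x = c p

theorem Ext.yonMap_ofValue (E : Ext) {S T : Table} (g : E.M S T) (X : E.Gpd)
    (x : E.at X.obj T) : E.yonMap g ≫ E.ofValue X x = E.ofValue X (E.act X.obj g x) := by
  refine InducedCategory.hom_ext (yonedaEquiv.injective ?_)
  show E.act X.obj (𝟙 _ ≫ g) x = E.act X.obj (𝟙 _) (E.act X.obj g x)
  rw [Category.id_comp, E.act_id]

theorem Ext.ofValue_comp (E : Ext) {T : Table} {X Y : E.Gpd} (f : X ⟶ Y) (x : E.at X.obj T) :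
    E.ofValue X x ≫ f = E.ofValue Y (f.hom.app _ x) := by
  refine InducedCategory.hom_ext (yonedaEquiv.injective ?_)
  show f.hom.app _ (E.act X.obj (𝟙 _) x) = E.act Y.obj (𝟙 _) (f.hom.app _ x)
  rw [E.act_id, E.act_id]

namespace CylData

variable {C : Coherator} (c : CylData C)

/-- The realisation of a groupoid. -/
abbrev Sp (X : C.C.Gpd) : Type := (c.S.toSimpBase.sys X).Space

/-- The map of a realisation of a representable given by a value. -/
abbrev val (X : C.C.Gpd) {T : Table} (x : C.C.at X.obj T) : C(c.L T, c.Sp X) :=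
  c.S.toSimpBase.real (C.C.ofValue X x)

theorem val_act (X : C.C.Gpd) {S T : Table} (g : C.C.M S T) (x : C.C.at X.obj T) :
    c.val X (C.C.act X.obj g x) = (c.val X x).comp (c.lMap g) := by
  rw [val, ← C.C.yonMap_ofValue, SimpBase.real_comp]

theorem val_map {X Y : C.C.Gpd} (f : X ⟶ Y) {T : Table} (x : C.C.at X.obj T) :
    c.val Y (f.hom.app _ x) = (c.S.toSimpBase.real f).comp (c.val X x) := by
  rw [val, ← C.C.ofValue_comp, SimpBase.real_comp]

/-- A value with a homotopy from a map out of the disc to its realisation. -/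
@[ext]
structure MData (X : C.C.Gpd) (T : Table) : Type where
  x : C.C.at X.obj T
  G : C(c.D.space T × I, c.Sp X)
  h1 : ∀ y, G (y, 1) = c.val X x (c.jt T y)

namespace MData

variable {c} {X Y : C.C.Gpd} {R S T : Table}

/-- The map out of the cylinder. -/
def hat (m : MData c X T) : C(c.P T, c.Sp X) := c.desc m.G (c.val X m.x) m.h1

/-- The action of a morphism of cylinders. -/
def act (f : CylHom c S T) (m : MData c X T) : MData c X S where
  x := C.C.act X.obj f.φ m.x
  G := m.hat.comp f.H
  h1 y := by
    show m.hat (f.H (y, 1)) = _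
    rw [f.h1, c.val_act]
    rfl

theorem hat_act (f : CylHom c S T) (m : MData c X T) : (m.act f).hat = m.hat.comp f.map := by
  refine c.cyl_ext (fun p => rfl) fun q => ?_
  show c.val X (C.C.act X.obj f.φ m.x) q = c.val X m.x (c.lMap f.φ q)
  rw [c.val_act]
  rfl

theorem act_id (m : MData c X T) : m.act (CylHom.idHom T) = m := by
  refine MData.ext (C.C.act_id X.obj m.x) (ContinuousMap.ext fun p => rfl)

theorem act_comp (f : CylHom c R S) (g : CylHom c S T) (m : MData c X T) :
    m.act (f.compHom g) = (m.act g).act f := by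
  refine MData.ext (C.C.act_comp X.obj f.φ g.φ m.x) ?_
  show m.hat.comp (g.map.comp f.H) = (m.act g).hat.comp f.H
  rw [hat_act]
  rfl

/-- Push forward along a map of groupoids. -/
def push (f : X ⟶ Y) (m : MData c X T) : MData c Y T where
  x := f.hom.app _ m.x
  G := (c.S.toSimpBase.real f).comp m.G
  h1 y := by
    show c.S.toSimpBase.real f (m.G (y, 1)) = _
    rw [m.h1, c.val_map]
    rfl

theorem hat_push (f : X ⟶ Y) (m : MData c X T) :
    (m.push f).hat = (c.S.toSimpBase.real f).comp m.hat := by
  refine c.cyl_ext (fun p => rfl) fun q => ?_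
  show c.val Y (f.hom.app _ m.x) q = c.S.toSimpBase.real f (c.val X m.x q)
  rw [c.val_map]
  rfl

theorem push_act (f : X ⟶ Y) (g : CylHom c S T) (m : MData c X T) :
    (m.act g).push f = (m.push f).act g := by
  refine MData.ext (C.C.act_natural f.hom g.φ m.x).symm ?_
  show (c.S.toSimpBase.real f).comp (m.hat.comp g.H) = (m.push f).hat.comp g.H
  rw [hat_push]
  rfl

/-- The bottom of the homotopy. -/
def bottom (m : MData c X T) : C(c.D.space T, c.Sp X) :=
  m.G.comp ⟨fun y => (y, 0), continuous_id.prodMk continuous_const⟩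

theorem bottom_act (f : CylHom c S T) (m : MData c X T) :
    (m.act f).bottom = m.bottom.comp (c.D.mapC f.φ) := by
  refine ContinuousMap.ext fun y => ?_
  show m.hat (f.H (y, 0)) = _
  rw [f.h0]
  rfl

end MData

/-- The cylinder model, on cylinders. -/
def preM (X : C.C.Gpd) : (c.CylObj)ᵒᵖ ⥤ Type where
  obj a := MData c X a.unop.ob.down
  map f := TypeCat.ofHom fun m => m.act f.unop
  map_id a := ConcreteCategory.hom_ext _ _ fun m => m.act_id
  map_comp f g := ConcreteCategory.hom_ext _ _ fun m => m.act_comp g.unop f.unop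

theorem preM_glues (X : C.C.Gpd) : GluesOn c.cylOb (c.preM X) := by
  intro T d hd
  obtain ⟨x, hx, hxu⟩ := X.property T (fun p => (d p).x) (fun p => congrArg MData.x (hd p))
  obtain ⟨G, hG', hGu⟩ := c.D.exists_glue T (fun p => (d p).G.curry) (fun p => by
    refine ContinuousMap.ext fun y => ContinuousMap.ext fun t => ?_
    exact DFunLike.congr_fun (congrArg MData.G (hd p)) (y, t))
  have hcur : ∀ p y t, G (c.D.mapC (C.C.i.map (incl T p)) y) t = (d p).G (y, t) :=
    fun p y t => DFunLike.congr_fun (DFunLike.congr_fun (hG' p) y) t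
  have e1 : ∀ y, G y 1 = c.val X x (c.jt T y) := fun y => by
    have := c.D.space_ext (T := T)
      (a := ⟨fun y => G y 1, (continuous_eval_const (1 : I)).comp G.continuous⟩)
      (b := (c.val X x).comp (c.jt T)) fun p => ContinuousMap.ext fun y => by
        show G (c.D.mapC (C.C.i.map (incl T p)) y) 1 = _
        rw [hcur]
        refine ((d p).h1 y).trans ?_
        refine ((congrArg (fun z => c.val X z (c.jt (disc (T.top p)) y)) (hx p).symm).trans
          (DFunLike.congr_fun (c.val_act X _ x) _)).trans ?_
        exact congrArg (c.val X x) (DFunLike.congr_fun (c.jt_nat (incl T p)) y).symm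
    exact DFunLike.congr_fun this y
  refine ⟨(⟨x, G.uncurry, e1⟩ : MData c X T),
    fun p => MData.ext (hx p) (ContinuousMap.ext fun q => hcur p q.1 q.2), fun m hm => ?_⟩
  refine MData.ext (hxu _ fun p => congrArg MData.x (hm p)) ?_
  have hcu : (MData.G m).curry = G := hGu _ fun p =>
    ContinuousMap.ext fun y => ContinuousMap.ext fun t =>
      DFunLike.congr_fun (congrArg MData.G (hm p)) (y, t)
  show MData.G m = G.uncurry
  rw [← hcu]
  rfl

end CylData

end

end Vale.Agent.P259
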