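import Vale.Agent.P259.Final.ModelFunctor
import Vale.Agent.P259.Pi.Iota

/-!
# P259: cells of the cylinder model, and forgetting the homotopy is a weak equivalence
-/

namespace Vale.Agent.P259

open CategoryTheory Opposite
open scoped Topology unitInterval

noncomputable section

/-- The iterated identity of the point, as a map of discs. -/
def Ext.Units.path {E : Ext} (u : E.Units) : ∀ n, E.M (disc n) (disc 0)
  | 0 => 𝟙 _
  | n + 1 => u.unit n ≫ path u n

theorem Ext.Units.iter_eq {E : Ext} (u : E.Units) {X : E.Psh} (x : E.cells X 0) :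
    ∀ n, u.iter x n = E.act X (u.path n) x
  | 0 => (E.act_id X x).symm
  | n + 1 => by
    show E.act X (u.unit n) (u.iter x n) = E.act X (u.unit n ≫ u.path n) x
    rw [Ext.Units.iter_eq u x n, E.act_comp]

theorem Ext.Units.iter_app {E : Ext} (u : E.Units) {X Y : E.Psh} (f : X ⟶ Y) (x : E.cells X 0)
    (n : ℕ) : E.appCell f n (u.iter x n) = u.iter (E.appCell f 0 x) n := by
  rw [u.iter_eq, u.iter_eq]
  exact (E.act_natural f _ x).symm

/-- Homotopic cells of a groupoid are linked. -/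
theorem Ext.Homotopic.linked {E : Ext} (hLE : Spec.LinkedEquiv) (hE : E.Contractible) {X : E.Gpd}
    {n : ℕ} {a b : E.cells X.obj n} (h : E.Homotopic X.obj a b) : E.Linked X.obj a b := by
  induction h with
  | rel a b h => exact h
  | refl a => exact (hLE E hE X n).1 a
  | symm _ _ _ ih => exact (hLE E hE X n).2.1 _ _ ih
  | trans _ _ _ _ _ ih ih' => exact (hLE E hE X n).2.2 _ _ _ ih ih'

/-- Loops at one point have the same sides. -/
theorem Ext.IsLoop.par {E : Ext} {u : E.Units} {X : E.Psh} {x : E.cells X 0} :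
    ∀ {n : ℕ} {a b : E.cells X n}, E.IsLoop u X x n a → E.IsLoop u X x n b → E.Par X a b
  | 0, _, _, _, _ => trivial
  | _ + 1, _, _, ha, hb => fun e => (ha e).trans (hb e).symm

namespace CylData

variable {C : Coherator} (c : CylData C) (hWC : ∀ T, WC (c.L T))

/-- The cylinder model of a groupoid. -/
abbrev MX (X : C.C.Gpd) : C.C.Psh := ((c.mFunctor hWC).obj X).obj

/-- The cylinder over a ball, inside the cylinder over the value of the disc functor. -/
def ballIn (n : ℕ) : C(Ball n × I, c.D.space (disc n) × I) :=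
  ⟨fun p => ((c.D.homeo n).symm p.1, p.2),
    ((c.D.homeo n).symm.continuous.comp continuous_fst).prodMk continuous_snd⟩

/-- The cylinder over the value of the disc functor, as a cylinder over a ball. -/
def ballOut (n : ℕ) : C(c.D.space (disc n) × I, Ball n × I) :=
  ⟨fun p => (c.D.homeo n p.1, p.2),
    ((c.D.homeo n).continuous.comp continuous_fst).prodMk continuous_snd⟩

/-- The cell under a cell of the cylinder model. -/
def mx {X : C.C.Gpd} {n : ℕ} (m : C.C.cells (c.MX hWC X) n) : C.C.cells X.obj n :=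
  (c.eqv hWC X (disc n) m).x

/-- The homotopy of a cell of the cylinder model, on a ball. -/
def mb {X : C.C.Gpd} {n : ℕ} (m : C.C.cells (c.MX hWC X) n) : C(Ball n × I, c.Sp X) :=
  (c.eqv hWC X (disc n) m).G.comp (c.ballIn n)

variable {c} {hWC} {X : C.C.Gpd} {n : ℕ}

theorem mb_one (m : C.C.cells (c.MX hWC X) n) (v : Ball n) :
    c.mb hWC m (v, 1) = c.J.theta X (c.mx hWC m) v := by
  refine ((c.eqv hWC X (disc n) m).h1 _).trans ?_
  rw [c.jt_disc]
  show c.val X _ (c.J.ι n (c.D.homeo n ((c.D.homeo n).symm v))) = _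
  rw [Homeomorph.apply_symm_apply]
  rfl

theorem cell_ext {m m' : C.C.cells (c.MX hWC X) n} (hx : c.mx hWC m = c.mx hWC m')
    (hG : ∀ p, c.mb hWC m p = c.mb hWC m' p) : m = m' := by
  refine (c.eqv hWC X (disc n)).injective (MData.ext hx (ContinuousMap.ext fun p => ?_))
  obtain ⟨y, t⟩ := p
  obtain ⟨v, rfl⟩ := (c.D.homeo n).symm.surjective y
  exact hG (v, t)

theorem exists_cell (x : C.C.cells X.obj n) (G : C(Ball n × I, c.Sp X))
    (h : ∀ v, G (v, 1) = c.J.theta X x v) :
    ∃ m : C.C.cells (c.MX hWC X) n, c.mx hWC m = x ∧ c.mb hWC m = G := by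
  refine ⟨(c.eqv hWC X (disc n)).symm ⟨x, G.comp (c.ballOut n), fun y => ?_⟩, ?_,
    ContinuousMap.ext fun p => ?_⟩
  · show G (c.D.homeo n y, 1) = _
    rw [h, c.jt_disc]
    rfl
  · rw [mx, Equiv.apply_symm_apply]
  · rw [mb, Equiv.apply_symm_apply]
    show G (c.D.homeo n ((c.D.homeo n).symm p.1), p.2) = G p
    rw [Homeomorph.apply_symm_apply]

theorem exists_cell_over (x : C.C.cells X.obj n) :
    ∃ m : C.C.cells (c.MX hWC X) n, c.mx hWC m = x ∧
      ∀ v t, c.mb hWC m (v, t) = c.J.theta X x v := by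
  obtain ⟨m, h1, h2⟩ := exists_cell (hWC := hWC) x
    ((c.J.theta X x).comp ⟨Prod.fst, continuous_fst⟩) fun v => rfl
  exact ⟨m, h1, fun v t => by rw [h2]; rfl⟩

theorem mx_act {S : ℕ} (g : C.C.M (disc n) (disc S)) (m : C.C.cells (c.MX hWC X) S) :
    c.mx hWC (C.C.act (c.MX hWC X) g m) = C.C.act X.obj g (c.mx hWC m) := by
  rw [mx, c.eqv_act]
  show C.C.act X.obj (c.cylMap hWC g).φ _ = _
  rw [c.cylMap_φ]
  rfl

theorem mb_act {S : ℕ} (g : C.C.M (disc n) (disc S)) (m : C.C.cells (c.MX hWC X) S)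
    (p : Ball n × I) :
    c.mb hWC (C.C.act (c.MX hWC X) g m) p =
      (c.eqv hWC X (disc S) m).hat ((c.cylMap hWC g).H (c.ballIn n p)) := by
  rw [mb, c.eqv_act]
  rfl

theorem mb_face (e : Bool) (m : C.C.cells (c.MX hWC X) (n + 1)) (v : Ball n) (t : I) :
    c.mb hWC (C.C.act (c.MX hWC X) (C.C.face e n) m) (v, t) =
      c.mb hWC m (hemi e n v, t) := by
  rw [mb, c.eqv_side]
  show (c.eqv hWC X _ m).G (c.D.mapC (C.C.face e n) ((c.D.homeo n).symm v), t) = _
  rw [← c.homeo_face]
  rfl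

theorem mb_rim_eq {a b : C.C.cells (c.MX hWC X) n} (h : C.C.Par (c.MX hWC X) a b) :
    ∀ v ∈ rim n, ∀ t, c.mb hWC a (v, t) = c.mb hWC b (v, t) := by
  cases n with
  | zero => exact fun v hv => absurd hv (by simp [Ball.rim_zero])
  | succ k =>
    intro v hv t
    obtain ⟨e, w, rfl⟩ := Ball.exists_hemi hv
    rw [← mb_face, ← mb_face, h e]

theorem proj_cell (m : C.C.cells (c.MX hWC X) n) :
    C.C.appCell (c.projHom hWC X).hom n m = c.mx hWC m :=
  c.projHom_app hWC X m

/-- Cells between projections lift. -/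
theorem linked_of_linked {a b : C.C.cells (c.MX hWC X) n} (hp : C.C.Par (c.MX hWC X) a b)
    (h : C.C.Linked X.obj (c.mx hWC a) (c.mx hWC b)) : C.C.Linked (c.MX hWC X) a b := by
  obtain ⟨x, hxa, hxb⟩ := h
  let side : Bool → C.C.cells (c.MX hWC X) n := fun e => if e then b else a
  have hs : ∀ e, C.C.act X.obj (C.C.face e n) x = c.mx hWC (side e) := fun e => by
    cases e
    exacts [hxa, hxb]
  obtain ⟨s, hsg⟩ := Ball.exists_glue (fun e => c.mb hWC (side e)) (mb_rim_eq hp)
  obtain ⟨G, hG0, hGs⟩ := exists_cyl_lift (c.J.theta X x)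
    (s.comp ⟨fun p => (p.1, unitInterval.symm p.2),
      continuous_fst.prodMk (unitInterval.continuous_symm.comp continuous_snd)⟩) fun v => by
    obtain ⟨e, w, hw⟩ := Ball.exists_hemi v.2
    obtain rfl : v = ⟨hemi e n w, Ball.hemi_mem_rim e w⟩ := Subtype.ext hw.symm
    show s (_, unitInterval.symm 0) = _
    rw [unitInterval.symm_zero, hsg, mb_one, ← hs, ← c.J.theta_hemi]
    rfl
  obtain ⟨m, hmx, hmb⟩ := exists_cell (hWC := hWC) x
    (G.comp ⟨fun p => (p.1, unitInterval.symm p.2),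
      continuous_fst.prodMk (unitInterval.continuous_symm.comp continuous_snd)⟩) fun v => by
    show G (v, unitInterval.symm 1) = _
    rw [unitInterval.symm_one, hG0]
  have hm : ∀ e, C.C.act (c.MX hWC X) (C.C.face e n) m = side e := fun e => by
    refine cell_ext ?_ fun p => ?_
    · rw [mx_act, hmx, hs]
    · obtain ⟨v, t⟩ := p
      rw [mb_face, hmb]
      refine (hGs ⟨_, Ball.hemi_mem_rim e v⟩ (unitInterval.symm t)).trans ?_
      show s (_, unitInterval.symm (unitInterval.symm t)) = _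
      rw [unitInterval.symm_symm, hsg]
  exact ⟨m, hm false, hm true⟩

/-- Cells with prescribed projection and sides. -/
theorem exists_loop_over (u : C.C.Units) (x₀ : C.C.cells (c.MX hWC X) 0) :
    ∀ (n : ℕ) (b : C.C.cells X.obj n), C.C.IsLoop u X.obj (c.mx hWC x₀) n b →
      ∃ m : C.C.cells (c.MX hWC X) n, C.C.IsLoop u (c.MX hWC X) x₀ n m ∧ c.mx hWC m = b
  | 0, b, _ => let ⟨m, hm, _⟩ := exists_cell_over (hWC := hWC) b; ⟨m, trivial, hm⟩
  | n + 1, b, hb => by
    have hi : c.mx hWC (u.iter x₀ n) = u.iter (c.mx hWC x₀) n := by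
      rw [u.iter_eq, u.iter_eq, mx_act]
    obtain ⟨s, hsg⟩ := Ball.exists_glue (fun _ => c.mb hWC (u.iter x₀ n)) fun _ _ _ => rfl
    obtain ⟨G, hG0, hGs⟩ := exists_cyl_lift (c.J.theta X b)
      (s.comp ⟨fun p => (p.1, unitInterval.symm p.2),
        continuous_fst.prodMk (unitInterval.continuous_symm.comp continuous_snd)⟩) fun v => by
      obtain ⟨e, w, hw⟩ := Ball.exists_hemi v.2
      obtain rfl : v = ⟨hemi e n w, Ball.hemi_mem_rim e w⟩ := Subtype.ext hw.symm
      show s (_, unitInterval.symm 0) = _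
      rw [unitInterval.symm_zero, hsg, mb_one, hi, ← hb e, ← c.J.theta_hemi]
      rfl
    obtain ⟨m, hmx, hmb⟩ := exists_cell (hWC := hWC) b
      (G.comp ⟨fun p => (p.1, unitInterval.symm p.2),
        continuous_fst.prodMk (unitInterval.continuous_symm.comp continuous_snd)⟩) fun v => by
      show G (v, unitInterval.symm 1) = _
      rw [unitInterval.symm_one, hG0]
    refine ⟨m, fun e => cell_ext ?_ fun p => ?_, hmx⟩
    · rw [mx_act, hmx, hb e, hi]
    · obtain ⟨v, t⟩ := p
      rw [mb_face, hmb]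
      refine (hGs ⟨_, Ball.hemi_mem_rim e v⟩ (unitInterval.symm t)).trans ?_
      show s (_, unitInterval.symm (unitInterval.symm t)) = _
      rw [unitInterval.symm_symm, hsg]

/-- Forgetting the homotopy is a weak equivalence. -/
theorem projHom_weq (hLE : Spec.LinkedEquiv) (X : C.C.Gpd) : C.C.weq (c.projHom hWC X) := by
  refine ⟨fun y => ?_, fun u x n => ⟨fun b hb => ?_, fun a a' ha ha' h => ?_⟩⟩
  · obtain ⟨m, hm, -⟩ := exists_cell_over (hWC := hWC) y
    exact ⟨m, by rw [proj_cell, hm]; exact Relation.EqvGen.refl _⟩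
  · rw [proj_cell] at hb
    obtain ⟨m, hm, hmb⟩ := exists_loop_over u x n b hb
    exact ⟨m, hm, by rw [proj_cell, hmb]; exact Relation.EqvGen.refl _⟩
  · rw [proj_cell, proj_cell] at h
    exact Relation.EqvGen.rel _ _ (linked_of_linked (Ext.IsLoop.par ha ha')
      (h.linked hLE C.C_contractible))

end CylData

end

end Vale.Agent.P259
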