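import Vale.Agent.P259.Final.Model

/-!
# P259: the cylinder model as a functor on groupoids, with its two projections
-/

namespace Vale.Agent.P259

open CategoryTheory Opposite
open scoped Topology unitInterval

noncomputable section

theorem heq_app_eqToHom {A : Type} [Category A] {F F' : Aᵒᵖ ⥤ Type} (h : F = F') (a : Aᵒᵖ)
    (x : F.obj a) : HEq ((eqToHom h).app a x) x := by
  subst h
  rfl

namespace CylData

variable {C : Coherator} (c : CylData C) (hWC : ∀ T, WC (c.L T))

/-- The section into cylinders. -/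
def sect : C.C.Obj ⥤ c.CylObj := (Glob.exists_section (c.hasLifts hWC)).choose

theorem sect_ob : C.C.i ⋙ c.sect hWC = c.cylOb :=
  (Glob.exists_section (c.hasLifts hWC)).choose_spec.1

theorem sect_proj : c.sect hWC ⋙ c.cylProj = 𝟭 C.C.Obj :=
  (Glob.exists_section (c.hasLifts hWC)).choose_spec.2

theorem sect_obj (T : Table) : (c.sect hWC).obj (C.C.i.obj T) = c.cylOb.obj T :=
  CategoryTheory.Functor.congr_obj (c.sect_ob hWC) T

/-- The chosen cylinder map over a map of the coherator. -/
def cylMap {S T : Table} (g : C.C.M S T) : CylHom c S T :=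
  Glob.recast (c.sect_obj hWC S).symm (c.sect_obj hWC T) ((c.sect hWC).map g)

theorem cylMap_φ {S T : Table} (g : C.C.M S T) : (c.cylMap hWC g).φ = g := by
  refine eq_of_heq ((Glob.heq_map_of_heq c.cylProj (c.sect_obj hWC S).symm (c.sect_obj hWC T).symm
      (Glob.recast_heq (c.sect_obj hWC S).symm (c.sect_obj hWC T) ((c.sect hWC).map g))).trans ?_)
  exact Glob.heq_map_functor (c.sect_proj hWC) g

theorem cylMap_table {S T : Table} (g : S ⟶ T) :
    c.cylMap hWC (C.C.i.map g) = CylHom.ofTable g :=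
  eq_of_heq ((Glob.recast_heq _ _ _).trans (Glob.heq_map_functor (c.sect_ob hWC) g))

/-- The map of cylinder data induced by a map of groupoids. -/
def preMap {X Y : C.C.Gpd} (f : X ⟶ Y) : c.preM X ⟶ c.preM Y where
  app _ := TypeCat.ofHom fun m => m.push f
  naturality _ _ g := ConcreteCategory.hom_ext _ _ fun m => MData.push_act f g.unop m

theorem mGpd (X : C.C.Gpd) : C.C.IsGpd ((c.sect hWC).op ⋙ c.preM X) := by
  have h : GluesOn (C.C.i ⋙ c.sect hWC) (c.preM X) := by
    rw [c.sect_ob hWC]
    exact c.preM_glues X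
  exact fun T d hd => h T d hd

/-- The cylinder model. -/
def mFunctor : C.C.Gpd ⥤ C.C.Gpd where
  obj X := ⟨(c.sect hWC).op ⋙ c.preM X, c.mGpd hWC X⟩
  map f := ObjectProperty.homMk (Functor.whiskerLeft (c.sect hWC).op (c.preMap f))
  map_id X := InducedCategory.hom_ext (NatTrans.ext (funext fun o =>
    ConcreteCategory.hom_ext _ _ fun m =>
      show MData.push (c := c) (𝟙 X) m = m from MData.ext rfl (by
        show (c.S.toSimpBase.real (𝟙 X)).comp (MData.G m) = MData.G m
        rw [SimpBase.real_id, ContinuousMap.id_comp])))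
  map_comp {X Y Z} f g := InducedCategory.hom_ext (NatTrans.ext (funext fun o =>
    ConcreteCategory.hom_ext _ _ fun m =>
      show MData.push (c := c) (f ≫ g) m = (MData.push f m).push g from MData.ext rfl (by
        show (c.S.toSimpBase.real (f ≫ g)).comp (MData.G m) =
          (c.S.toSimpBase.real g).comp ((c.S.toSimpBase.real f).comp (MData.G m))
        rw [SimpBase.real_comp, ContinuousMap.comp_assoc])))

/-- The value of the cylinder model at a globular sum. -/
def eqv (X : C.C.Gpd) (T : Table) :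
    C.C.at ((c.mFunctor hWC).obj X).obj T ≃ MData c X T :=
  Equiv.cast (congrArg (fun a : c.CylObj => MData c X a.ob.down) (c.sect_obj hWC T))

theorem cast_act {a a' b b' : c.CylObj} (ha : a' = a) (hb : b' = b) (f : a' ⟶ b') (X : C.C.Gpd)
    (m : MData c X b'.ob.down) :
    Equiv.cast (congrArg (fun z : c.CylObj => MData c X z.ob.down) ha) (MData.act f m) =
      MData.act (Glob.recast ha.symm hb f)
        (Equiv.cast (congrArg (fun z : c.CylObj => MData c X z.ob.down) hb) m) := by
  subst ha hb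
  have h : Glob.recast rfl rfl f = f := eq_of_heq (Glob.recast_heq rfl rfl f)
  rw [h]
  rfl

theorem eqv_act (X : C.C.Gpd) {S T : Table} (g : C.C.M S T)
    (m : C.C.at ((c.mFunctor hWC).obj X).obj T) :
    c.eqv hWC X S (C.C.act ((c.mFunctor hWC).obj X).obj g m) =
      (c.eqv hWC X T m).act (c.cylMap hWC g) :=
  c.cast_act (c.sect_obj hWC S) (c.sect_obj hWC T) ((c.sect hWC).map g) X m

theorem eqv_side (X : C.C.Gpd) {S T : Table} (g : S ⟶ T)
    (m : C.C.at ((c.mFunctor hWC).obj X).obj T) :
    c.eqv hWC X S (C.C.act ((c.mFunctor hWC).obj X).obj (C.C.i.map g) m) =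
      (c.eqv hWC X T m).act (CylHom.ofTable g) := by
  rw [c.eqv_act, c.cylMap_table]

theorem cast_push {a a' : c.CylObj} (ha : a' = a) {X Y : C.C.Gpd} (f : X ⟶ Y)
    (m : MData c X a'.ob.down) :
    Equiv.cast (congrArg (fun z : c.CylObj => MData c Y z.ob.down) ha) (m.push f) =
      (Equiv.cast (congrArg (fun z : c.CylObj => MData c X z.ob.down) ha) m).push f := by
  subst ha
  rfl

theorem eqv_map {X Y : C.C.Gpd} (f : X ⟶ Y) (T : Table)
    (m : C.C.at ((c.mFunctor hWC).obj X).obj T) :
    c.eqv hWC Y T (((c.mFunctor hWC).map f).hom.app _ m) = (c.eqv hWC X T m).push f :=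
  c.cast_push (c.sect_obj hWC T) f m

/-- Forgetting the homotopy, on cylinders. -/
def preP (X : C.C.Gpd) : c.preM X ⟶ c.cylProj.op ⋙ X.obj where
  app _ := TypeCat.ofHom fun m => MData.x m
  naturality _ _ _ := ConcreteCategory.hom_ext _ _ fun _ => rfl

/-- The bottom, on cylinders. -/
def preQ (X : C.C.Gpd) :
    c.preM X ⟶ c.cylProj.op ⋙ c.D.sing.obj (c.S.toSimpBase.realFunctor.obj X) where
  app _ := TypeCat.ofHom fun m => CompactlyGenerated.ofHom (MData.bottom m)
  naturality _ _ f := ConcreteCategory.hom_ext _ _ fun m =>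
    congrArg CompactlyGenerated.ofHom (MData.bottom_act f.unop m)

theorem sect_proj_op (F : C.C.Objᵒᵖ ⥤ Type) : (c.sect hWC).op ⋙ c.cylProj.op ⋙ F = F := by
  show (c.sect hWC ⋙ c.cylProj).op ⋙ F = F
  rw [c.sect_proj hWC]
  rfl

/-- Forgetting the homotopy. -/
def projHom (X : C.C.Gpd) : (c.mFunctor hWC).obj X ⟶ X :=
  ObjectProperty.homMk
    (Functor.whiskerLeft (c.sect hWC).op (c.preP X) ≫ eqToHom (c.sect_proj_op hWC X.obj))

/-- The bottom. -/
def bottomHom (X : C.C.Gpd) :
    (c.mFunctor hWC).obj X ⟶ c.D.pi.obj (c.S.toSimpBase.realFunctor.obj X) :=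
  ObjectProperty.homMk (Functor.whiskerLeft (c.sect hWC).op (c.preQ X) ≫
    eqToHom (c.sect_proj_op hWC (c.D.sing.obj (c.S.toSimpBase.realFunctor.obj X))))

theorem cast_x {a a' : c.CylObj} (ha : a' = a) {X : C.C.Gpd} (m : MData c X a'.ob.down) :
    HEq m.x (Equiv.cast (congrArg (fun z : c.CylObj => MData c X z.ob.down) ha) m).x := by
  subst ha
  rfl

theorem cast_bottom {a a' : c.CylObj} (ha : a' = a) {X : C.C.Gpd} (m : MData c X a'.ob.down) :
    HEq (CompactlyGenerated.ofHom (MData.bottom m)) (CompactlyGenerated.ofHom (MData.bottom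
      (Equiv.cast (congrArg (fun z : c.CylObj => MData c X z.ob.down) ha) m))) := by
  subst ha
  rfl

theorem projHom_app (X : C.C.Gpd) {T : Table} (m : C.C.at ((c.mFunctor hWC).obj X).obj T) :
    (c.projHom hWC X).hom.app _ m = (c.eqv hWC X T m).x :=
  eq_of_heq ((heq_app_eqToHom (c.sect_proj_op hWC X.obj) _ _).trans
    (c.cast_x (c.sect_obj hWC T) m))

theorem bottomHom_app (X : C.C.Gpd) {T : Table} (m : C.C.at ((c.mFunctor hWC).obj X).obj T) :
    (c.bottomHom hWC X).hom.app _ m = CompactlyGenerated.ofHom (c.eqv hWC X T m).bottom :=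
  eq_of_heq ((heq_app_eqToHom
    (c.sect_proj_op hWC (c.D.sing.obj (c.S.toSimpBase.realFunctor.obj X))) _ _).trans
    (c.cast_bottom (c.sect_obj hWC T) m))

theorem gpd_hom_ext {X Y : C.C.Gpd} {f g : X ⟶ Y}
    (h : ∀ (T : Table) (x : C.C.at X.obj T), f.hom.app _ x = g.hom.app _ x) : f = g := by
  refine InducedCategory.hom_ext (NatTrans.ext (funext fun o => ?_))
  obtain ⟨T, hT⟩ := C.C.obj_bij.2 o.unop
  obtain rfl : o = op (C.C.i.obj T) := by rw [hT]
  exact ConcreteCategory.hom_ext _ _ (h T)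

/-- Forgetting the homotopy, naturally. -/
def projNat : c.mFunctor hWC ⟶ 𝟭 C.C.Gpd where
  app := c.projHom hWC
  naturality X Y f := gpd_hom_ext fun T m => by
    show (c.projHom hWC Y).hom.app _ (((c.mFunctor hWC).map f).hom.app _ m) =
      f.hom.app _ ((c.projHom hWC X).hom.app _ m)
    rw [projHom_app, projHom_app, eqv_map]
    rfl

/-- The bottom, naturally. -/
def bottomNat : c.mFunctor hWC ⟶ c.S.toSimpBase.realFunctor ⋙ c.D.pi where
  app := c.bottomHom hWC
  naturality X Y f := gpd_hom_ext fun T m => by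
    show (c.bottomHom hWC Y).hom.app _ (((c.mFunctor hWC).map f).hom.app _ m) =
      (c.D.pi.map (c.S.toSimpBase.realFunctor.map f)).hom.app _
        ((c.bottomHom hWC X).hom.app _ m)
    rw [bottomHom_app, bottomHom_app, eqv_map]
    rfl

end CylData

end

end Vale.Agent.P259
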