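import Vale.Agent.P259.Final.ModelCells
import Vale.Agent.P259.Final.Homotopy

/-!
# P259: the bottom of the cylinder model is a weak equivalence
-/

namespace Vale.Agent.P259

open CategoryTheory Opposite P259.Top
open scoped Topology unitInterval

noncomputable section

namespace DiscFunctor

variable {E : Ext} (D : DiscFunctor E) {Y : CompactlyGenerated.{0, 0}} {n : ℕ}

/-- The map of a ball given by a cell of the fundamental groupoid. -/
def ballMap (a : E.cells (D.sing.obj Y) n) : C(Ball n, Y.toTop) :=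
  (cmap a).comp ((D.homeo n).symm : C(Ball n, E.discSpace D.D n))

theorem ballMap_ext {a b : E.cells (D.sing.obj Y) n} (h : ∀ v, D.ballMap a v = D.ballMap b v) :
    a = b := by
  refine ConcreteCategory.hom_ext _ _ fun y => ?_
  obtain ⟨v, rfl⟩ := (D.homeo n).symm.surjective y
  exact h v

theorem cellEquiv_ball (a : E.cells (D.sing.obj Y) n) (v : Ball n) :
    D.cellEquiv Y n a (ballDisc n v) = D.ballMap a v :=
  rfl

/-- Homotopic cells are homotopic relative to the sphere. -/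
theorem exists_homotopy_of_homotopic {a b : E.cells (D.sing.obj Y) n}
    (h : E.Homotopic (D.sing.obj Y) a b) :
    ∃ H : C(Ball n × I, Y.toTop), (∀ v, H (v, 0) = D.ballMap a v) ∧
      (∀ v, H (v, 1) = D.ballMap b v) ∧ ∀ (v : Ball n) t, v ∈ rim n → H (v, t) = D.ballMap a v := by
  obtain ⟨F⟩ := filler_iff_homotopicRel.1 ((D.homotopic_iff Y a b).1 h)
  refine ⟨F.toContinuousMap.comp ⟨fun p => (p.2, ballDisc n p.1),
    continuous_snd.prodMk ((ballDisc n).continuous.comp continuous_fst)⟩, fun v => ?_, fun v => ?_,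
    fun v t hv => ?_⟩
  · exact (F.apply_zero _).trans (D.cellEquiv_ball a v)
  · exact (F.apply_one _).trans (D.cellEquiv_ball b v)
  · exact (F.eq_fst t ((Ball.mem_rim_iff v).1 hv)).trans (D.cellEquiv_ball a v)

theorem homotopic_of_joined {a b : E.cells (D.sing.obj Y) 0}
    (h : Joined (D.ballMap a Ball.pt) (D.ballMap b Ball.pt)) :
    E.Homotopic (D.sing.obj Y) a b := by
  rw [D.homotopic_iff, D.cellEquiv_zero, D.cellEquiv_zero, ← joined_iff_filler]
  have hp : ballDisc 0 Ball.pt = P259.Top.discPoint := Subsingleton.elim _ _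
  rw [point, point, ← hp, D.cellEquiv_ball, D.cellEquiv_ball]
  exact h

end DiscFunctor

namespace CylData

variable {C : Coherator} (c : CylData C) (hWC : ∀ T, WC (c.L T))

/-- The groupoid of the realisation. -/
abbrev PY (X : C.C.Gpd) : C.C.Psh := c.D.sing.obj (c.S.toSimpBase.realFunctor.obj X)

variable {c} {hWC} {X : C.C.Gpd} {n : ℕ}

theorem bottom_cell (m : C.C.cells (c.MX hWC X) n) (v : Ball n) :
    c.D.ballMap (C.C.appCell (c.bottomHom hWC X).hom n m) v = c.mb hWC m (v, 0) := by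
  show cmap ((c.bottomHom hWC X).hom.app _ m) ((c.D.homeo n).symm v) = _
  rw [c.bottomHom_app]
  rfl

theorem joined_bottom (m : C.C.cells (c.MX hWC X) 0) (v : Ball 0) :
    Joined (c.mb hWC m (v, 0)) (c.J.theta X (c.mx hWC m) v) := by
  rw [← mb_one]
  exact ⟨⟨⟨fun t => c.mb hWC m (v, t),
    (c.mb hWC m).continuous.comp (continuous_const.prodMk continuous_id)⟩, rfl, rfl⟩⟩

theorem bottom_points (hp : Spec.RealPoints) (y : C.C.cells (c.PY X) 0) :
    ∃ m : C.C.cells (c.MX hWC X) 0,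
      C.C.Homotopic (c.PY X) (C.C.appCell (c.bottomHom hWC X).hom 0 m) y := by
  obtain ⟨x, hx⟩ := hp C c.S c.J X (c.D.ballMap y Ball.pt)
  obtain ⟨m, -, hm⟩ := exists_cell_over (hWC := hWC) x
  refine ⟨m, c.D.homotopic_of_joined ?_⟩
  rw [bottom_cell, hm]
  exact hx Ball.pt

/-- The sphere in the cylinder of a point given by two copies of an iterated identity. -/
theorem exists_sides (hWC : ∀ T, WC (c.L T)) (u : C.C.Units) (n : ℕ) :
    ∃ (w : C(rim (n + 1), c.L (disc 0))) (W : C(rim (n + 1) × I, c.P (disc 0))),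
      (∀ v, W (v, 1) = c.inR (disc 0) (w v)) ∧
      (∀ e v, w ⟨hemi e n v, Ball.hemi_mem_rim e v⟩ = c.J.theta (C.C.yon (disc 0)) (u.path n) v) ∧
      ∀ e v t, W (⟨hemi e n v, Ball.hemi_mem_rim e v⟩, t) =
        (c.cylMap hWC (u.path n)).H (c.ballIn n (v, t)) := by
  obtain ⟨w, hw⟩ := c.J.exists_bdry (C.C.yon (disc 0)) (n := n) (fun _ => u.path n)
    (by cases n with
      | zero => trivial
      | succ n => exact fun _ => rfl)
  obtain ⟨W, hW⟩ := Ball.exists_glue
    (fun _ : Bool => (c.cylMap hWC (u.path n)).H.comp (c.ballIn n)) fun _ _ _ => rfl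
  refine ⟨w, W, fun v => ?_, hw, fun e v t => hW e v t⟩
  obtain ⟨e, z, hz⟩ := Ball.exists_hemi v.2
  obtain rfl : v = ⟨hemi e n z, Ball.hemi_mem_rim e z⟩ := Subtype.ext hz.symm
  refine (hW e z 1).trans (((c.cylMap hWC (u.path n)).h1 _).trans ?_)
  rw [hw, c.cylMap_φ, c.jt_disc, c.J.theta_yon]
  show c.inR _ (c.lMap _ (c.J.ι n (c.D.homeo n ((c.D.homeo n).symm z)))) = _
  rw [Homeomorph.apply_symm_apply]
  rfl

theorem mb_iter (u : C.C.Units) (x₀ : C.C.cells (c.MX hWC X) 0) (p : Ball n × I) :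
    c.mb hWC (u.iter x₀ n) p =
      (c.eqv hWC X (disc 0) x₀).hat ((c.cylMap hWC (u.path n)).H (c.ballIn n p)) := by
  rw [u.iter_eq, mb_act]

theorem hat_inR (x₀ : C.C.cells (c.MX hWC X) 0) (q : c.L (disc 0)) :
    (c.eqv hWC X (disc 0) x₀).hat (c.inR (disc 0) q) =
      c.S.toSimpBase.real (C.C.ofValue X (c.mx hWC x₀)) q :=
  rfl

theorem loop_sides (u : C.C.Units) (x₀ : C.C.cells (c.MX hWC X) 0) (m : C.C.cells (c.MX hWC X) (n + 1))
    (hm : C.C.IsLoop u (c.MX hWC X) x₀ (n + 1) m) (e : Bool) :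
    C.C.act X.obj (C.C.face e n) (c.mx hWC m) = C.C.act X.obj (u.path n) (c.mx hWC x₀) := by
  rw [← mx_act, hm e, u.iter_eq, mx_act]

theorem bottom_surjective (hpi : Spec.RealPi) (u : C.C.Units) (x₀ : C.C.cells (c.MX hWC X) 0)
    (b : C.C.cells (c.PY X) (n + 1))
    (hb : C.C.IsLoop u (c.PY X) (C.C.appCell (c.bottomHom hWC X).hom 0 x₀) (n + 1) b) :
    ∃ m : C.C.cells (c.MX hWC X) (n + 1), C.C.IsLoop u (c.MX hWC X) x₀ (n + 1) m ∧
      C.C.appCell (c.bottomHom hWC X).hom (n + 1) m = b := by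
  obtain ⟨w, W, hW1, hw, hW⟩ := exists_sides hWC u n
  let hat : C(c.P (disc 0), c.Sp X) := (c.eqv hWC X (disc 0) x₀).hat
  let f : C(Ball (n + 1), c.Sp X) := c.D.ballMap b
  have hf : ∀ e v, f (hemi e n v) = hat (W (⟨hemi e n v, Ball.hemi_mem_rim e v⟩, 0)) := by
    intro e v
    have hi : C.C.appCell (c.bottomHom hWC X).hom n (u.iter x₀ n) =
        C.C.act (c.PY X) (C.C.face e n) b :=
      (u.iter_app _ x₀ n).trans (hb e).symm
    rw [hW, ← mb_iter, ← bottom_cell, hi]
    show cmap b _ = cmap b (c.D.mapC (C.C.face e n) ((c.D.homeo n).symm v))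
    rw [← c.homeo_face]
    rfl
  obtain ⟨F, hF0, hFs⟩ := exists_cyl_lift f (hat.comp W) fun v => by
    obtain ⟨e, z, hz⟩ := Ball.exists_hemi v.2
    obtain rfl : v = ⟨hemi e n z, Ball.hemi_mem_rim e z⟩ := Subtype.ext hz.symm
    exact (hf e z).symm
  obtain ⟨a, has, ha, H, h, hH, hH0, hH1, hh0, hh1⟩ :=
    (hpi C c.S c.J (C.C.yon (disc 0)) X (C.C.ofValue X (c.mx hWC x₀))
      (yonCtr C.C C.C_contractible (disc 0)) n (fun _ => u.path n)
      (by cases n with
        | zero => trivial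
        | succ n => exact fun _ => rfl) w (fun e v _ => hw e v)).1
      (F.comp ⟨fun v => (v, 1), continuous_id.prodMk continuous_const⟩)
      (fun v => (hFs v 1).trans (congrArg hat (hW1 v)))
  let h' : C(rim (n + 1) × I, c.P (disc 0)) := revH ((c.inR (disc 0)).comp h)
  have hWh : ∀ v, W (v, 1) = h' (v, 0) := fun v => by
    rw [hW1, revH_zero]
    exact congrArg (c.inR (disc 0)) (hh1 v).symm
  have hFH : ∀ v, F (v, 1) = revH H (v, 0) := fun v => by
    rw [revH_zero, hH1]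
    rfl
  obtain ⟨G, hG0, hG1, hGs⟩ := exists_side_change (c.wc_P (hWC (disc 0))) hat
    (catH F (revH H) hFH) (catH W h' hWh) W
    (fun v t => catH_nat F (revH H) hFH W h' hWh hat Subtype.val (fun k s => hFs k s)
      (fun k s => (hH k _).trans rfl) v t)
    (fun v => catH_zero W h' hWh v)
    (fun v => by
      rw [catH_one, revH_one, hW1]
      exact congrArg (c.inR (disc 0)) (hh0 v))
  obtain ⟨m, hmx, hmb⟩ := exists_cell (hWC := hWC) a G fun v => by
    rw [hG1, catH_one, revH_one, hH0]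
  refine ⟨m, fun e => cell_ext ?_ fun p => ?_, c.D.ballMap_ext fun v => ?_⟩
  · rw [mx_act, hmx, u.iter_eq, mx_act]
    cases e
    exacts [has.1, has.2]
  · obtain ⟨v, t⟩ := p
    rw [mb_face, hmb, mb_iter, ← hW e v t]
    exact hGs ⟨_, Ball.hemi_mem_rim e v⟩ t
  · rw [bottom_cell, hmb, hG0, catH_zero, hF0]
    rfl

theorem bottom_injective (hpi : Spec.RealPi) (u : C.C.Units) (x₀ : C.C.cells (c.MX hWC X) 0)
    (m m' : C.C.cells (c.MX hWC X) (n + 1)) (hm : C.C.IsLoop u (c.MX hWC X) x₀ (n + 1) m)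
    (hm' : C.C.IsLoop u (c.MX hWC X) x₀ (n + 1) m')
    (h : C.C.Homotopic (c.PY X) (C.C.appCell (c.bottomHom hWC X).hom (n + 1) m)
      (C.C.appCell (c.bottomHom hWC X).hom (n + 1) m')) :
    C.C.Linked (c.MX hWC X) m m' := by
  obtain ⟨w, W, hW1, hw, hW⟩ := exists_sides hWC u n
  let hat : C(c.P (disc 0), c.Sp X) := (c.eqv hWC X (disc 0) x₀).hat
  have side : ∀ m₁ : C.C.cells (c.MX hWC X) (n + 1), C.C.IsLoop u (c.MX hWC X) x₀ (n + 1) m₁ →
      ∀ (v : rim (n + 1)) t, c.mb hWC m₁ (v.1, t) = hat (W (v, t)) := by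
    intro m₁ h₁ v t
    obtain ⟨e, z, hz⟩ := Ball.exists_hemi v.2
    obtain rfl : v = ⟨hemi e n z, Ball.hemi_mem_rim e z⟩ := Subtype.ext hz.symm
    rw [hW, ← mb_iter, ← mb_face, h₁ e]
  obtain ⟨Q, hQ0, hQ1, hQs⟩ : ∃ Q : C(Ball (n + 1) × I, c.Sp X),
      (∀ v, Q (v, 0) = c.mb hWC m (v, 0)) ∧ (∀ v, Q (v, 1) = c.mb hWC m' (v, 0)) ∧
      ∀ (v : Ball (n + 1)) t, v ∈ rim (n + 1) → Q (v, t) = c.mb hWC m (v, 0) := by
    obtain ⟨Q, h0, h1, hs⟩ := c.D.exists_homotopy_of_homotopic h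
    exact ⟨Q, fun v => (h0 v).trans (bottom_cell m v), fun v => (h1 v).trans (bottom_cell m' v),
      fun v t hv => (hs v t hv).trans (bottom_cell m v)⟩
  let Wc : C(rim (n + 1) × I, c.P (disc 0)) :=
    W.comp ⟨fun p => (p.1, 0), continuous_fst.prodMk continuous_const⟩
  have hQW : ∀ (v : rim (n + 1)) t, Q (v.1, t) = hat (Wc (v, t)) := fun v t =>
    (hQs v.1 t v.2).trans (side m hm v 0)
  have e1 : ∀ v, Q (v, 1) = c.mb hWC m' (v, 0) := hQ1
  have e0 : ∀ v, revH (c.mb hWC m) (v, 1) = catH Q (c.mb hWC m') e1 (v, 0) := fun v => by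
    rw [revH_one, catH_zero, hQ0]
  have f1 : ∀ v : rim (n + 1), Wc (v, 1) = W (v, 0) := fun _ => rfl
  have f0 : ∀ v : rim (n + 1), revH W (v, 1) = catH Wc W f1 (v, 0) := fun v => by
    rw [revH_one, catH_zero]
    rfl
  obtain ⟨G, hG0, hG1, hGs⟩ := exists_side_change (c.wc_P (hWC (disc 0))) hat
    (catH (revH (c.mb hWC m)) (catH Q (c.mb hWC m') e1) e0)
    (catH (revH W) (catH Wc W f1) f0)
    ((c.inR (disc 0)).comp (w.comp ⟨Prod.fst, continuous_fst⟩))
    (fun v t => catH_nat _ _ e0 (revH W) (catH Wc W f1) f0 hat Subtype.val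
      (fun k s => side m hm k _)
      (fun k s => catH_nat Q (c.mb hWC m') e1 Wc W f1 hat Subtype.val hQW (side m' hm') k s) v t)
    (fun v => by
      rw [catH_zero, revH_zero, hW1]
      rfl)
    (fun v => by
      rw [catH_one, catH_one, hW1]
      rfl)
  have par : ∀ m₁ : C.C.cells (c.MX hWC X) (n + 1), C.C.IsLoop u (c.MX hWC X) x₀ (n + 1) m₁ →
      ∀ v : rim (n + 1), c.J.theta X (c.mx hWC m₁) v.1 =
        c.S.toSimpBase.real (C.C.ofValue X (c.mx hWC x₀)) (w v) := fun m₁ h₁ v => by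
    rw [← mb_one, side m₁ h₁ v 1, hW1]
    exact hat_inR x₀ _
  refine linked_of_linked (Ext.IsLoop.par hm hm') ?_
  refine (hpi C c.S c.J (C.C.yon (disc 0)) X (C.C.ofValue X (c.mx hWC x₀))
      (yonCtr C.C C.C_contractible (disc 0)) n (fun _ => u.path n)
      (by cases n with
        | zero => trivial
        | succ n => exact fun _ => rfl) w (fun e v _ => hw e v)).2 _ _
    ⟨loop_sides u x₀ m hm false, loop_sides u x₀ m hm true⟩
    ⟨loop_sides u x₀ m' hm' false, loop_sides u x₀ m' hm' true⟩ (par m hm) (par m' hm')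
    ⟨G, w.comp ⟨Prod.fst, continuous_fst⟩, fun v t => (hGs v t).trans (hat_inR x₀ _),
      fun v => ?_, fun v => ?_, fun v => rfl, fun v => rfl⟩
  · rw [hG0, catH_zero, revH_zero, mb_one]
  · rw [hG1, catH_one, catH_one, mb_one]

/-- The bottom is a weak equivalence. -/
theorem bottomHom_weq (hp : Spec.RealPoints) (hp0 : Spec.RealPiZero) (hpi : Spec.RealPi)
    (X : C.C.Gpd) : C.C.weq (c.bottomHom hWC X) := by
  refine ⟨bottom_points hp, fun u x n => ⟨fun b hb => ?_, fun a a' ha ha' h => ?_⟩⟩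
  · cases n with
    | zero =>
      obtain ⟨m, hm⟩ := bottom_points (hWC := hWC) hp b
      exact ⟨m, trivial, hm⟩
    | succ n =>
      obtain ⟨m, hm, hmb⟩ := bottom_surjective hpi u x b hb
      exact ⟨m, hm, by rw [hmb]; exact Relation.EqvGen.refl _⟩
  · refine Relation.EqvGen.rel _ _ ?_
    cases n with
    | zero =>
      obtain ⟨Q, hQ0, hQ1, -⟩ := c.D.exists_homotopy_of_homotopic h
      refine linked_of_linked trivial (hp0 C c.S c.J X _ _ fun v => ?_)
      have hj : Joined (c.mb hWC a (v, 0)) (c.mb hWC a' (v, 0)) :=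
        ⟨⟨⟨fun t => Q (v, t), Q.continuous.comp (continuous_const.prodMk continuous_id)⟩,
          (hQ0 v).trans (bottom_cell a v), (hQ1 v).trans (bottom_cell a' v)⟩⟩
      exact (joined_bottom a v).symm.trans (hj.trans (joined_bottom a' v))
    | succ n => exact bottom_injective hpi u x a a' ha ha' h

end CylData

/-- Models are naturally equivalent to the groupoids of their realisations. -/
theorem modelReal (hLE : Spec.LinkedEquiv) (hF : Spec.SysFills) (hW : Spec.RealWC)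
    (hI : Spec.IotaExists) (hp : Spec.RealPoints) (hp0 : Spec.RealPiZero) (hpi : Spec.RealPi) :
    Spec.ModelReal := by
  intro C S D _
  obtain ⟨J⟩ := hI C S
  let c : CylData C := ⟨S, J, D⟩
  have hWC : ∀ T, WC (c.L T) := Pi.space_wc hW hF S
  exact ⟨c.mFunctor hWC, c.projNat hWC, c.bottomNat hWC, fun X =>
    ⟨CylData.projHom_weq hLE X, CylData.bottomHom_weq hp hp0 hpi X⟩⟩

end

end Vale.Agent.P259
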