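import Vale.Agent.P259.Final.Glue

/-!
# P259: the maps from the values of a disc functor into the realisations of representables
-/

namespace Vale.Agent.P259

open CategoryTheory Opposite
open scoped Topology unitInterval

noncomputable section

theorem Ext.yonMap_id (E : Ext) (T : Table) : E.yonMap (𝟙 (E.i.obj T)) = 𝟙 (E.yon T) :=
  InducedCategory.hom_ext (yoneda.map_id _)

theorem Ext.yonMap_comp (E : Ext) {R S T : Table} (f : E.M R S) (g : E.M S T) :
    E.yonMap (f ≫ g) = E.yonMap f ≫ E.yonMap g :=
  InducedCategory.hom_ext (yoneda.map_comp f g)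

theorem incl_disc (n : ℕ) (p : Fin ((disc n).len + 1)) : incl (disc n) p = 𝟙 (disc n) := by
  obtain rfl : p = 0 := Fin.ext (Nat.lt_one_iff.1 p.isLt)
  exact Glob.disc_hom_ext rfl

/-- The data of the comparison: simplices, maps of discs, a disc functor. -/
structure CylData (C : Coherator) : Type 1 where
  S : Simplices C.C
  J : Iota S.toSimpBase
  D : DiscFunctor C.C

namespace CylData

variable {C : Coherator} (c : CylData C)

/-- The realisation of a representable. -/
abbrev L (T : Table) : Type := (c.S.toSimpBase.sys (C.C.yon T)).Space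

/-- The action on realisations of representables. -/
abbrev lMap {S T : Table} (g : C.C.M S T) : C(c.L S, c.L T) :=
  c.S.toSimpBase.real (C.C.yonMap g)

theorem lMap_comp {R S T : Table} (f : C.C.M R S) (g : C.C.M S T) :
    c.lMap (f ≫ g) = (c.lMap g).comp (c.lMap f) := by
  rw [lMap, C.C.yonMap_comp, SimpBase.real_comp]

theorem lMap_id (T : Table) : c.lMap (𝟙 (C.C.i.obj T)) = ContinuousMap.id _ := by
  rw [lMap, C.C.yonMap_id, SimpBase.real_id]

/-- The map of a value of the disc functor at a disc. -/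
def discJ (n : ℕ) : C(c.D.space (disc n), c.L (disc n)) :=
  (c.J.ι n).comp (c.D.homeo n : C(c.D.space (disc n), Ball n))

theorem discJ_face (e : Bool) (n : ℕ) :
    (c.discJ (n + 1)).comp (c.D.mapC (C.C.face e n)) =
      (c.lMap (C.C.face e n)).comp (c.discJ n) := by
  refine ContinuousMap.ext fun x => ?_
  have h : c.D.homeo (n + 1) (c.D.mapC (C.C.face e n) x) = hemi e n (c.D.homeo n x) :=
    Subtype.ext (c.D.hemi n e x)
  exact (congrArg (c.J.ι (n + 1)) h).trans (DFunLike.congr_fun (c.J.nat e n) (c.D.homeo n x))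

theorem discJ_side (e : Bool) {j : ℕ} : ∀ {i : ℕ} (h : j < i),
    (c.discJ i).comp (c.D.mapC (C.C.i.map (side e h))) =
      (c.lMap (C.C.i.map (side e h))).comp (c.discJ j)
  | 0, h => absurd h (Nat.not_lt_zero j)
  | i + 1, h => by
    rcases Nat.lt_or_ge j i with h' | h'
    · have hs : C.C.i.map (side e h) = C.C.i.map (side e h') ≫ C.C.face false i := by
        rw [← C.C.i.map_comp, Glob.side_comp]
      rw [hs, c.D.mapC_comp, c.lMap_comp, ← ContinuousMap.comp_assoc, c.discJ_face,
        ContinuousMap.comp_assoc, discJ_side e h', ContinuousMap.comp_assoc]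
    · obtain rfl : j = i := le_antisymm (Nat.lt_succ_iff.1 h) h'
      exact c.discJ_face e j

theorem exists_jt (T : Table) : ∃ g : C(c.D.space T, c.L T), ∀ p,
    g.comp (c.D.mapC (C.C.i.map (incl T p))) =
      (c.lMap (C.C.i.map (incl T p))).comp (c.discJ (T.top p)) :=
  (c.D.exists_glue T (fun p => (c.lMap (C.C.i.map (incl T p))).comp (c.discJ (T.top p)))
    (fun p => by
      rw [ContinuousMap.comp_assoc, ContinuousMap.comp_assoc, c.discJ_side, c.discJ_side,
        ← ContinuousMap.comp_assoc, ← ContinuousMap.comp_assoc, ← c.lMap_comp, ← c.lMap_comp,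
        C.C.incl_glue])).exists

/-- The natural map into the realisation of a representable. -/
def jt (T : Table) : C(c.D.space T, c.L T) := (c.exists_jt T).choose

theorem jt_incl (T : Table) (p : Fin (T.len + 1)) :
    (c.jt T).comp (c.D.mapC (C.C.i.map (incl T p))) =
      (c.lMap (C.C.i.map (incl T p))).comp (c.discJ (T.top p)) :=
  (c.exists_jt T).choose_spec p

theorem jt_disc (n : ℕ) : c.jt (disc n) = c.discJ n := by
  refine c.D.space_ext fun p => ?_
  have e : ∀ q : disc n ⟶ disc n, q = 𝟙 _ →
      (c.lMap (C.C.i.map q)).comp (c.discJ n) = (c.discJ n).comp (c.D.mapC (C.C.i.map q)) := by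
    intro q hq
    subst hq
    rw [C.C.i.map_id, c.lMap_id, c.D.mapC_id, ContinuousMap.id_comp, ContinuousMap.comp_id]
  exact (c.jt_incl (disc n) p).trans (e _ (incl_disc n p))

theorem jt_disc_map {n : ℕ} {T : Table} (g : disc n ⟶ T) :
    (c.jt T).comp (c.D.mapC (C.C.i.map g)) = (c.lMap (C.C.i.map g)).comp (c.discJ n) := by
  rcases Glob.disc_hom_cases g with ⟨p, h, rfl⟩ | ⟨p, e, h, rfl⟩
  · subst h
    simpa using c.jt_incl T p
  · rw [C.C.i.map_comp, c.D.mapC_comp, c.lMap_comp, ← ContinuousMap.comp_assoc, c.jt_incl,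
      ContinuousMap.comp_assoc, c.discJ_side, ContinuousMap.comp_assoc]

theorem jt_nat {S T : Table} (g : S ⟶ T) :
    (c.jt T).comp (c.D.mapC (C.C.i.map g)) = (c.lMap (C.C.i.map g)).comp (c.jt S) := by
  refine c.D.space_ext fun p => ?_
  rw [ContinuousMap.comp_assoc, ← c.D.mapC_comp, ← C.C.i.map_comp, c.jt_disc_map,
    ContinuousMap.comp_assoc, c.jt_incl, ← ContinuousMap.comp_assoc, ← c.lMap_comp,
    ← C.C.i.map_comp]

end CylData

end

end Vale.Agent.P259
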