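import Vale.Agent.P259.Defs

/-!
# P259: weak equivalences read at one choice of identity cells
-/

namespace Vale.Agent.P259

open CategoryTheory

/-- Bijectivity on connected components and on all homotopy groups, for one choice of identity
cells. -/
def Ext.IsWeqAt (E : Ext) (u : E.Units) {X Y : E.Psh} (f : X ⟶ Y) : Prop :=
  (∀ y : E.cells Y 0, ∃ x : E.cells X 0, E.Homotopic Y (E.appCell f 0 x) y) ∧
  ∀ (x : E.cells X 0) (n : ℕ),
    (∀ b, E.IsLoop u Y (E.appCell f 0 x) n b →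
      ∃ a, E.IsLoop u X x n a ∧ E.Homotopic Y (E.appCell f n a) b) ∧
    ∀ a a', E.IsLoop u X x n a → E.IsLoop u X x n a' →
      E.Homotopic Y (E.appCell f n a) (E.appCell f n a') → E.Homotopic X a a'

/-- Between groupoids, being a weak equivalence does not depend on the identity cells. -/
def Ext.UnitsIndep (E : Ext) : Prop :=
  ∀ (u : E.Units) (X Y : E.Psh) (f : X ⟶ Y), E.IsGpd X → E.IsGpd Y →
    E.IsWeqAt u f → E.IsWeqMap f

theorem Ext.IsWeqMap.weqAt {E : Ext} {X Y : E.Psh} {f : X ⟶ Y} (h : E.IsWeqMap f)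
    (u : E.Units) : E.IsWeqAt u f :=
  ⟨h.1, h.2 u⟩

theorem Ext.isWeqMap_of_weqAt {E : Ext} {X Y : E.Psh} {f : X ⟶ Y} (u₀ : E.Units)
    (h : ∀ u, E.IsWeqAt u f) : E.IsWeqMap f :=
  ⟨(h u₀).1, fun u => (h u).2⟩

end Vale.Agent.P259
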