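import Vale.Agent.P259.Final.ModelWeq
import Vale.Agent.P259.Final.BasePoint
import Vale.Agent.P259.Final.WeqAt

/-!
# P259: the realisation preserves weak equivalences
-/

namespace Vale.Agent.P259

open CategoryTheory P259.Top
open scoped Topology unitInterval

noncomputable section

namespace Ext

variable {E : Ext} {X Y Z : E.Psh}

theorem Homotopic.map (f : X ⟶ Y) {n : ℕ} {a b : E.cells X n} (h : E.Homotopic X a b) :
    E.Homotopic Y (E.appCell f n a) (E.appCell f n b) := by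
  induction h with
  | rel a b h =>
    obtain ⟨c, rfl, rfl⟩ := h
    exact Relation.EqvGen.rel _ _ ⟨E.appCell f _ c, E.act_natural f _ c, E.act_natural f _ c⟩
  | refl a => exact Relation.EqvGen.refl _
  | symm _ _ _ ih => exact Relation.EqvGen.symm _ _ ih
  | trans _ _ _ _ _ ih ih' => exact Relation.EqvGen.trans _ _ _ ih ih'

theorem IsLoop.map (f : X ⟶ Y) {u : E.Units} {x : E.cells X 0} :
    ∀ {n : ℕ} {a : E.cells X n}, E.IsLoop u X x n a →
      E.IsLoop u Y (E.appCell f 0 x) n (E.appCell f n a)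
  | 0, _, _ => trivial
  | n + 1, a, h => fun e =>
    (E.act_natural f _ a).trans ((congrArg (E.appCell f n) (h e)).trans (u.iter_app f x n))

/-- The composite of weak equivalences. -/
theorem IsWeqAt.comp {u : E.Units} {f : X ⟶ Y} {g : Y ⟶ Z} (hf : E.IsWeqAt u f)
    (hg : E.IsWeqAt u g) : E.IsWeqAt u (f ≫ g) := by
  refine ⟨fun z => ?_, fun x n => ⟨fun b hb => ?_, fun a a' ha ha' h => ?_⟩⟩
  · obtain ⟨y, hy⟩ := hg.1 z
    obtain ⟨x, hx⟩ := hf.1 y
    exact ⟨x, Relation.EqvGen.trans _ _ _ (hx.map g) hy⟩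
  · obtain ⟨a, ha, hab⟩ := (hg.2 (E.appCell f 0 x) n).1 b hb
    obtain ⟨a₀, ha₀, h₀⟩ := (hf.2 x n).1 a ha
    exact ⟨a₀, ha₀, Relation.EqvGen.trans _ _ _ (h₀.map g) hab⟩
  · exact (hf.2 x n).2 a a' ha ha'
      ((hg.2 (E.appCell f 0 x) n).2 _ _ (ha.map f) (ha'.map f) h)

/-- Cancelling a weak equivalence on the left. -/
theorem IsWeqAt.of_comp {u : E.Units} {f : X ⟶ Y} {g : Y ⟶ Z} (hg : E.IsWeqAt u g)
    (h : E.IsWeqAt u (f ≫ g)) : E.IsWeqAt u f := by
  refine ⟨fun y => ?_, fun x n => ⟨fun b hb => ?_, fun a a' ha ha' h' => ?_⟩⟩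
  · obtain ⟨x, hx⟩ := h.1 (E.appCell g 0 y)
    exact ⟨x, (hg.2 y 0).2 _ _ trivial trivial hx⟩
  · obtain ⟨a, ha, hab⟩ := (h.2 x n).1 (E.appCell g n b) (hb.map g)
    exact ⟨a, ha, (hg.2 (E.appCell f 0 x) n).2 _ _ (ha.map f) hb hab⟩
  · exact (h.2 x n).2 a a' ha ha' (h'.map g)

/-- Cancelling on the right a weak equivalence which hits every cell. -/
theorem IsWeqAt.of_comp_right {u : E.Units} {f : X ⟶ Y} {g : Y ⟶ Z}
    (hs : ∀ y, ∃ x, E.appCell f 0 x = y) (hf : E.IsWeqAt u f) (h : E.IsWeqAt u (f ≫ g)) :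
    E.IsWeqAt u g := by
  refine ⟨fun z => ?_, fun y n => ?_⟩
  · obtain ⟨x, hx⟩ := h.1 z
    exact ⟨E.appCell f 0 x, hx⟩
  obtain ⟨x, rfl⟩ := hs y
  refine ⟨fun c hc => ?_, fun a a' ha ha' h' => ?_⟩
  · obtain ⟨α, hα, hαc⟩ := (h.2 x n).1 c hc
    exact ⟨E.appCell f n α, hα.map f, hαc⟩
  · obtain ⟨α, hα, hαa⟩ := (hf.2 x n).1 a ha
    obtain ⟨β, hβ, hβa⟩ := (hf.2 x n).1 a' ha'
    have hab : E.Homotopic X α β := (h.2 x n).2 α β hα hβ
      (Relation.EqvGen.trans _ _ _ (hαa.map g)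
        (Relation.EqvGen.trans _ _ _ h' (Relation.EqvGen.symm _ _ (hβa.map g))))
    exact Relation.EqvGen.trans _ _ _ (Relation.EqvGen.symm _ _ hαa)
      (Relation.EqvGen.trans _ _ _ (hab.map f) hβa)

theorem nonempty_units (hE : E.Contractible) : Nonempty E.Units := by
  have hp : ∀ n, E.Parallel (𝟙 (E.i.obj (disc n))) (𝟙 (E.i.obj (disc n))) := fun n => by
    cases n with
    | zero => trivial
    | succ n => exact fun _ => rfl
  exact ⟨⟨fun n => (hE _ _ (hp n)).choose, fun n => (hE _ _ (hp n)).choose_spec⟩⟩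

end Ext

namespace DiscFunctor

variable {E : Ext} (D : DiscFunctor E) {A B : CompactlyGenerated.{0, 0}} {M : E.Psh}

/-- A map of spaces is bijective at the points named by a weak equivalence which it keeps one. -/
theorem bijAt_point (f : A ⟶ B) (u : E.Units) (q : M ⟶ D.sing.obj A) (hq : E.IsWeqAt u q)
    (h : E.IsWeqAt u (q ≫ D.sing.map f)) (n : ℕ) (m : E.cells M 0) :
    BijAt (cmap f) n (D.point A (E.appCell q 0 m)) := by
  have loopA : ∀ a : DiscLoop n A.toTop (D.point A (E.appCell q 0 m)),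
      E.IsLoop u (D.sing.obj A) (E.appCell q 0 m) n ((D.cellEquiv A n).symm a.1) := fun a => by
    rw [D.isLoop_iff, Equiv.apply_symm_apply]
    exact a.2
  refine ⟨fun c => ?_, fun a b hab => ?_⟩
  · have hc : E.IsLoop u (D.sing.obj B) (E.appCell (q ≫ D.sing.map f) 0 m) n
        ((D.cellEquiv B n).symm c.1) := by
      rw [D.isLoop_iff, Equiv.apply_symm_apply]
      exact c.2
    obtain ⟨α, hα, hαc⟩ := (h.2 m n).1 _ hc
    refine ⟨⟨D.cellEquiv A n (E.appCell q n α), (D.isLoop_iff A u _ n _).1 (hα.map q)⟩, ?_⟩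
    have := (D.homotopic_iff B _ _).1 hαc
    rw [Equiv.apply_symm_apply] at this
    exact this
  · obtain ⟨α, hα, hαa⟩ := (hq.2 m n).1 _ (loopA a)
    obtain ⟨β, hβ, hβb⟩ := (hq.2 m n).1 _ (loopA b)
    have hab' : E.Homotopic (D.sing.obj B) (E.appCell (D.sing.map f) n ((D.cellEquiv A n).symm a.1))
        (E.appCell (D.sing.map f) n ((D.cellEquiv A n).symm b.1)) := by
      rw [D.homotopic_iff, D.cellEquiv_map, D.cellEquiv_map, Equiv.apply_symm_apply,
        Equiv.apply_symm_apply]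
      exact hab
    have hαβ : E.Homotopic M α β := (h.2 m n).2 α β hα hβ
      (Relation.EqvGen.trans _ _ _ (hαa.map (D.sing.map f))
        (Relation.EqvGen.trans _ _ _ hab'
          (Relation.EqvGen.symm _ _ (hβb.map (D.sing.map f)))))
    have := (D.homotopic_iff A _ _).1 (Relation.EqvGen.trans _ _ _
      (Relation.EqvGen.symm _ _ hαa) (Relation.EqvGen.trans _ _ _ (hαβ.map q) hβb))
    rwa [Equiv.apply_symm_apply, Equiv.apply_symm_apply] at this

/-- A map of spaces which keeps a weak equivalence one is a weak homotopy equivalence. -/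
theorem isTopWeq_of_comp (f : A ⟶ B) (u : E.Units) (q : M ⟶ D.sing.obj A) (hq : E.IsWeqAt u q)
    (h : E.IsWeqAt u (q ≫ D.sing.map f)) : IsTopWeq f := by
  refine isTopWeq_of_bijAt f (fun y => ?_) fun n x => ?_
  · obtain ⟨m, hm⟩ := h.1 ((D.cellEquiv B 0).symm (ContinuousMap.const _ y))
    refine ⟨D.point A (E.appCell q 0 m), ?_⟩
    have := (D.homotopic_iff B _ _).1 hm
    rw [Equiv.apply_symm_apply, D.cellEquiv_zero] at this
    exact (joined_iff_filler _ _).2 this
  · obtain ⟨m, hm⟩ := hq.1 ((D.cellEquiv A 0).symm (ContinuousMap.const _ x))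
    refine (D.bijAt_point f u q hq h n m).of_joined ?_
    have := (D.homotopic_iff A _ _).1 hm
    rw [Equiv.apply_symm_apply, D.cellEquiv_zero] at this
    exact (joined_iff_filler _ _).2 this

end DiscFunctor

/-- A map whose realisation is compared at one choice of identity cells. -/
theorem isTopWeq_real (hLE : Spec.LinkedEquiv) (hp : Spec.RealPoints) (hp0 : Spec.RealPiZero)
    (hpi : Spec.RealPi) {C : Coherator} (c : CylData C) (hWC : ∀ T, WC (c.L T)) (u : C.C.Units)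
    {X Y : C.C.Gpd} (f : X ⟶ Y) (hf : C.C.IsWeqAt u f.hom) :
    IsTopWeq (c.S.toSimpBase.realFunctor.map f) := by
  have hX : C.C.IsWeqAt u (((c.mFunctor hWC).map f).hom ≫ (c.projNat hWC |>.app Y).hom) := by
    have e := congrArg (fun g => InducedCategory.Hom.hom g) ((c.projNat hWC).naturality f)
    refine (congrArg (C.C.IsWeqAt u) e).mpr ?_
    exact Ext.IsWeqAt.comp (Ext.IsWeqMap.weqAt (CylData.projHom_weq hLE X) u) hf
  have hM : C.C.IsWeqAt u ((c.mFunctor hWC).map f).hom :=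
    Ext.IsWeqAt.of_comp (Ext.IsWeqMap.weqAt (CylData.projHom_weq hLE Y) u) hX
  have hB : C.C.IsWeqAt u ((c.bottomHom hWC X).hom ≫
      c.D.sing.map (c.S.toSimpBase.realFunctor.map f)) := by
    have e := congrArg (fun g => InducedCategory.Hom.hom g) ((c.bottomNat hWC).naturality f)
    refine (congrArg (C.C.IsWeqAt u) e.symm).mpr ?_
    exact hM.comp (Ext.IsWeqMap.weqAt (CylData.bottomHom_weq hp hp0 hpi Y) u)
  exact c.D.isTopWeq_of_comp (c.S.toSimpBase.realFunctor.map f) u (c.bottomHom hWC X).hom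
    (Ext.IsWeqMap.weqAt (CylData.bottomHom_weq hp hp0 hpi X) u) hB

/-- The realisation preserves weak equivalences. -/
theorem realPreserves (hD : Spec.DiscExists) (hLE : Spec.LinkedEquiv) (hF : Spec.SysFills)
    (hW : Spec.RealWC) (hI : Spec.IotaExists) (hp : Spec.RealPoints) (hp0 : Spec.RealPiZero)
    (hpi : Spec.RealPi) : Spec.RealPreserves := by
  intro C S X Y f hf
  obtain ⟨D, -⟩ := hD C
  obtain ⟨J⟩ := hI C S
  obtain ⟨u⟩ := Ext.nonempty_units C.C_contractible
  exact isTopWeq_real hLE hp hp0 hpi ⟨S, J, D⟩ (Pi.space_wc hW hF S) u f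
    (Ext.IsWeqMap.weqAt hf u)

/-- A weak equivalence at one choice of identity cells is one at every choice. -/
theorem weq_of_weqAt (hD : Spec.DiscExists) (hLE : Spec.LinkedEquiv) (hF : Spec.SysFills)
    (hW : Spec.RealWC) (hI : Spec.IotaExists) (hS : Spec.SimplicesExist) (hp : Spec.RealPoints)
    (hp0 : Spec.RealPiZero) (hpi : Spec.RealPi) (C : Coherator) {X Y : C.C.Gpd} (f : X ⟶ Y)
    (u : C.C.Units) (hf : C.C.IsWeqAt u f.hom) : C.C.weq f := by
  obtain ⟨S⟩ := hS C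
  obtain ⟨D, -⟩ := hD C
  obtain ⟨J⟩ := hI C S
  let c : CylData C := ⟨S, J, D⟩
  have hWC : ∀ T, WC (c.L T) := Pi.space_wc hW hF S
  have hreal := D.isWeqMap (isTopWeq_real hLE hp hp0 hpi c hWC u f hf)
  refine Ext.isWeqMap_of_weqAt u fun v => ?_
  have hM : C.C.IsWeqAt v ((c.mFunctor hWC).map f).hom := by
    have e := congrArg (fun g => InducedCategory.Hom.hom g) ((c.bottomNat hWC).naturality f)
    refine Ext.IsWeqAt.of_comp (Ext.IsWeqMap.weqAt (CylData.bottomHom_weq hp hp0 hpi Y) v) ?_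
    refine (congrArg (C.C.IsWeqAt v) e).mpr ?_
    exact (Ext.IsWeqMap.weqAt (CylData.bottomHom_weq hp hp0 hpi X) v).comp
      (Ext.IsWeqMap.weqAt hreal v)
  refine Ext.IsWeqAt.of_comp_right (f := (c.projHom hWC X).hom) (fun x => ?_)
    (Ext.IsWeqMap.weqAt (CylData.projHom_weq hLE X) v) ?_
  · obtain ⟨m, hm, -⟩ := CylData.exists_cell_over (hWC := hWC) x
    exact ⟨m, (CylData.proj_cell m).trans hm⟩
  · have e := congrArg (fun g => InducedCategory.Hom.hom g) ((c.projNat hWC).naturality f)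
    refine (congrArg (C.C.IsWeqAt v) e.symm).mpr ?_
    exact hM.comp (Ext.IsWeqMap.weqAt (CylData.projHom_weq hLE Y) v)

end

end Vale.Agent.P259
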