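import Vale.Agent.P259.Final.Assembly
import Vale.Agent.P259.Final.RealWeq
import Vale.Agent.P259.Free.SysFills
import Vale.Agent.P259.Free.Degen
import Vale.Agent.P259.Disc.Exists
import Vale.Agent.P259.Top.Preserves
import Vale.Agent.P259.Real.WC
import Vale.Agent.P259.Pi.Points
import Vale.Agent.P259.Sing.TopReal
import Vale.Agent.P259.Exist.Colim

/-!
# P259: the homotopy hypothesis from the interfaces of the modules D and G
-/

namespace Vale.Agent.P259

noncomputable section

theorem hypothesis_of_modules (hS : Spec.SimplicesExist) (hW : Spec.RealWC)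
    (hp : Spec.RealPoints) (hp0 : Spec.RealPiZero) (hpi : Spec.RealPi) (htop : Spec.TopReal) :
    ∀ C : Coherator, Hypothesis C :=
  have hF : Spec.SysFills := Free.sysFills
  have hI : Spec.IotaExists := Pi.iotaExists hW hF
  hypothesis_of_interfaces hS discExists piPreserves
    (realPreserves discExists linkedEquiv hF hW hI hp hp0 hpi) htop
    (modelReal linkedEquiv hF hW hI hp hp0 hpi)

theorem hypothesis_of_free (hs : Free.SemiCtrCone) (hR : Spec.RepCtrCone) (hpi : Spec.RealPi) :
    ∀ C : Coherator, Hypothesis C :=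
  have hF : Spec.SysFills := Free.sysFills
  have hp : Spec.RealPoints := Pi.realPoints realWC hF
  have hp0 : Spec.RealPiZero := Pi.realPiZero hR
  hypothesis_of_modules (Free.simplicesExist_of hs) realWC hp hp0 hpi
    (Sing.topReal realWC hF hp hp0 hpi)

theorem weq_of_weqAt_of_free (hs : Free.SemiCtrCone) (hR : Spec.RepCtrCone) (hpi : Spec.RealPi) :
    ∀ (C : Coherator) (X Y : C.C.Gpd) (f : X ⟶ Y) (u : C.C.Units),
      C.C.IsWeqAt u f.hom → C.C.weq f :=
  fun C _ _ f u hf =>
    weq_of_weqAt discExists linkedEquiv Free.sysFills realWC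
      (Pi.iotaExists realWC Free.sysFills) (Free.simplicesExist_of hs)
      (Pi.realPoints realWC Free.sysFills) (Pi.realPiZero hR) hpi C f u hf

theorem unitsIndep_of_free (hs : Free.SemiCtrCone) (hR : Spec.RepCtrCone) (hpi : Spec.RealPi)
    (C : Coherator) : C.C.UnitsIndep :=
  fun u X Y f hX hY hf => weq_of_weqAt_of_free hs hR hpi C ⟨X, hX⟩ ⟨Y, hY⟩
    (CategoryTheory.ObjectProperty.homMk f) u hf

/-- Everything that the result states, from the three open interfaces. -/
theorem full_of_free (hs : Free.SemiCtrCone) (hR : Spec.RepCtrCone) (hpi : Spec.RealPi) :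
    Nonempty Coherator ∧ (∀ C : Coherator, Hypothesis C ∧ C.C.UnitsIndep) ∧
      ∀ W : Tower, W.Admissible → ∃ C : Coherator, C.C = W.C ∧ Hypothesis C :=
  ⟨nonempty_coherator,
    fun C => ⟨hypothesis_of_free hs hR hpi C, unitsIndep_of_free hs hR hpi C⟩,
    fun W h => ⟨W.toCoherator h, rfl, hypothesis_of_free hs hR hpi _⟩⟩

end

end Vale.Agent.P259
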