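import Vale.Agent.P259.Final.Extend
import Vale.Agent.P259.Pi.Ball

/-!
# P259: changing the sides of a homotopy inside a weakly contractible space
-/

namespace Vale.Agent.P259

open CategoryTheory
open scoped Topology unitInterval

noncomputable section

variable {Z : Type} [TopologicalSpace Z]

/-- Two homotopies on a sphere with the same ends are homotopic relative to the ends. -/
theorem WC.exists_rim_square (hZ : WC Z) : ∀ (n : ℕ) (S S' : C(rim n × I, Z)),
    (∀ v, S (v, 0) = S' (v, 0)) → (∀ v, S (v, 1) = S' (v, 1)) →
    ∃ K : C(rim n × (I × I), Z), (∀ v t, K (v, (t, 0)) = S (v, t)) ∧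
      (∀ v t, K (v, (t, 1)) = S' (v, t)) ∧ (∀ v s, K (v, (0, s)) = S (v, 0)) ∧
      ∀ v s, K (v, (1, s)) = S (v, 1)
  | 0, S, _, _, _ => by
    have h : IsEmpty (rim 0) := ⟨fun v => by simpa [Ball.rim_zero] using v.2⟩
    exact ⟨⟨fun p => h.elim p.1, continuous_of_discreteTopology.comp continuous_fst⟩,
      fun v => h.elim v, fun v => h.elim v, fun v => h.elim v, fun v => h.elim v⟩
  | n + 1, S, S', h0, h1 => by
    let eq0 : C(rim n, rim (n + 1)) :=
      ⟨fun v => ⟨hemi false n v.1, Ball.hemi_mem_rim false v.1⟩,
        ((hemi false n).continuous.comp continuous_subtype_val).subtype_mk _⟩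
    obtain ⟨K0, k0, k1, k2, k3⟩ := WC.exists_rim_square hZ n
      (S.comp (eq0.prodMap (ContinuousMap.id I))) (S'.comp (eq0.prodMap (ContinuousMap.id I)))
      (fun v => h0 _) (fun v => h1 _)
    have step : ∀ e : Bool, ∃ K : C(Ball n × (I × I), Z),
        (∀ v t, K (v, (t, 0)) = S (⟨hemi e n v, Ball.hemi_mem_rim e v⟩, t)) ∧
        (∀ v t, K (v, (t, 1)) = S' (⟨hemi e n v, Ball.hemi_mem_rim e v⟩, t)) ∧
        (∀ v s, K (v, (0, s)) = S (⟨hemi e n v, Ball.hemi_mem_rim e v⟩, 0)) ∧
        (∀ v s, K (v, (1, s)) = S (⟨hemi e n v, Ball.hemi_mem_rim e v⟩, 1)) ∧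
        ∀ (v : rim n) q, K (v.1, q) = K0 (v, q) := by
      intro e
      classical
      let he : C(Ball n, rim (n + 1)) :=
        ⟨fun v => ⟨hemi e n v, Ball.hemi_mem_rim e v⟩, (hemi e n).continuous.subtype_mk _⟩
      have heq : ∀ v : rim n, eq0 v = he v.1 := fun v => Subtype.ext (Ball.hemi_eq_of_rim false e v.2)
      let g : Ball n × I × I → Z := fun p =>
        if hp : p.1 ∈ rim n then K0 (⟨p.1, hp⟩, p.2) else S (he p.1, p.2.1)
      let f0 : C(Ball (n + 1), Z) := ⟨fun w => S (he ((cylBall n).symm w).1, ((cylBall n).symm w).2),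
        S.continuous.comp (((he.continuous.comp continuous_fst).prodMk continuous_snd).comp
          (cylBall n).symm.continuous)⟩
      let f1 : C(Ball (n + 1), Z) :=
        ⟨fun w => S' (he ((cylBall n).symm w).1, ((cylBall n).symm w).2),
        S'.continuous.comp (((he.continuous.comp continuous_fst).prodMk continuous_snd).comp
          (cylBall n).symm.continuous)⟩
      have hcont : ContinuousOn g
          ({p | p.1 ∈ rim n} ∪ {p | p.2.1 = 0} ∪ {p | p.2.1 = 1}) := by
        refine (ContinuousOn.union_of_isClosed ?_ ?_ ((isClosed_rim n).preimage continuous_fst)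
          (isClosed_eq (continuous_fst.comp continuous_snd) continuous_const)).union_of_isClosed ?_
          (((isClosed_rim n).preimage continuous_fst).union
            (isClosed_eq (continuous_fst.comp continuous_snd) continuous_const))
          (isClosed_eq (continuous_fst.comp continuous_snd) continuous_const)
        · rw [continuousOn_iff_continuous_domRestrict]
          refine (K0.continuous.comp (((continuous_fst.comp continuous_subtype_val).subtype_mk
            fun x : {p : Ball n × I × I | p.1 ∈ rim n} => x.2).prodMk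
              (continuous_snd.comp continuous_subtype_val))).congr fun x => ?_
          have hx : x.1.1 ∈ rim n := x.2
          show K0 (⟨x.1.1, hx⟩, x.1.2) = g x.1
          simp only [g, dif_pos hx]
        · refine ((S.continuous.comp ((he.continuous.comp continuous_fst).prodMk
            (continuous_fst.comp continuous_snd)))).continuousOn.congr fun p hp => ?_
          obtain ⟨v, t, s⟩ := p
          obtain rfl : t = 0 := hp
          by_cases hv : v ∈ rim n
          · simp only [g, dif_pos hv]
            exact (k2 _ s).trans (congrArg (fun w => S (w, 0)) (heq ⟨v, hv⟩))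
          · simp [g, hv]
        · refine ((S.continuous.comp ((he.continuous.comp continuous_fst).prodMk
            (continuous_fst.comp continuous_snd)))).continuousOn.congr fun p hp => ?_
          obtain ⟨v, t, s⟩ := p
          obtain rfl : t = 1 := hp
          by_cases hv : v ∈ rim n
          · simp only [g, dif_pos hv]
            exact (k3 _ s).trans (congrArg (fun w => S (w, 1)) (heq ⟨v, hv⟩))
          · simp [g, hv]
      let side : C(rim (n + 1) × I, Z) :=
        ⟨fun p => g (((cylBall n).symm p.1.1).1, ((cylBall n).symm p.1.1).2, p.2),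
          hcont.comp_continuous ((((continuous_fst.comp (cylBall n).symm.continuous).comp
            (continuous_subtype_val.comp continuous_fst))).prodMk
              (((continuous_snd.comp (cylBall n).symm.continuous).comp
                (continuous_subtype_val.comp continuous_fst)).prodMk continuous_snd)) fun p => by
            have := (cylBall_mem_rim ((cylBall n).symm p.1.1)).1
              (by rw [Homeomorph.apply_symm_apply]; exact p.1.2)
            rcases this with h | h | h
            exacts [Or.inl (Or.inl h), Or.inl (Or.inr h), Or.inr h]⟩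
      have hg0 : ∀ v t, (v ∈ rim n ∨ t = 0 ∨ t = 1) → g (v, t, 0) = S (he v, t) := fun v t _ => by
        by_cases hv : v ∈ rim n
        · simp only [g, dif_pos hv]
          exact (k0 _ t).trans (congrArg (fun w => S (w, t)) (heq ⟨v, hv⟩))
        · simp [g, hv]
      have hg1 : ∀ v t, (v ∈ rim n ∨ t = 0 ∨ t = 1) → g (v, t, 1) = S' (he v, t) := fun v t ht => by
        by_cases hv : v ∈ rim n
        · simp only [g, dif_pos hv]
          exact (k1 _ t).trans (congrArg (fun w => S' (w, t)) (heq ⟨v, hv⟩))
        · rcases ht with h | rfl | rfl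
          · exact absurd h hv
          · simp only [g, dif_neg hv]; exact h0 _
          · simp only [g, dif_neg hv]; exact h1 _
      have hm : ∀ w : rim (n + 1), ((cylBall n).symm w.1).1 ∈ rim n ∨
          ((cylBall n).symm w.1).2 = 0 ∨ ((cylBall n).symm w.1).2 = 1 := fun w =>
        (cylBall_mem_rim _).1 (by rw [Homeomorph.apply_symm_apply]; exact w.2)
      obtain ⟨G, hG0, hG1, hGs⟩ := hZ.extend_cyl f0 f1 side (fun w => hg0 _ _ (hm w))
        (fun w => hg1 _ _ (hm w))
      have hGg : ∀ v t s, (v ∈ rim n ∨ t = 0 ∨ t = 1) → G (cylBall n (v, t), s) = g (v, t, s) :=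
        fun v t s h => by
          refine (hGs ⟨_, (cylBall_mem_rim (v, t)).2 h⟩ s).trans ?_
          show g (((cylBall n).symm (cylBall n (v, t))).1,
            ((cylBall n).symm (cylBall n (v, t))).2, s) = _
          rw [Homeomorph.symm_apply_apply]
      refine ⟨⟨fun p => G (cylBall n (p.1, p.2.1), p.2.2), G.continuous.comp
        (((cylBall n).continuous.comp (continuous_fst.prodMk
          (continuous_fst.comp continuous_snd))).prodMk (continuous_snd.comp continuous_snd))⟩,
        fun v t => ?_, fun v t => ?_, fun v s => ?_, fun v s => ?_, fun v q => ?_⟩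
      · exact (hG0 _).trans (by simp [f0, he])
      · exact (hG1 _).trans (by simp [f1, he])
      · refine (hGg v 0 s (Or.inr (Or.inl rfl))).trans ?_
        by_cases hv : v ∈ rim n
        · simp only [g, dif_pos hv]
          exact (k2 _ s).trans (congrArg (fun w => S (w, 0)) (heq ⟨v, hv⟩))
        · simp [g, hv, he]
      · refine (hGg v 1 s (Or.inr (Or.inr rfl))).trans ?_
        by_cases hv : v ∈ rim n
        · simp only [g, dif_pos hv]
          exact (k3 _ s).trans (congrArg (fun w => S (w, 1)) (heq ⟨v, hv⟩))
        · simp [g, hv, he]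
      · exact (hGg v.1 q.1 q.2 (Or.inl v.2)).trans (dif_pos v.2)
    choose K hK0 hK1 hK2 hK3 hKr using step
    obtain ⟨c, hc⟩ := Ball.exists_glue K fun v hv q => (hKr false ⟨v, hv⟩ q).trans (hKr true ⟨v, hv⟩ q).symm
    refine ⟨c, ?_, ?_, ?_, ?_⟩ <;> rintro ⟨w, hw⟩ t <;> obtain ⟨e, v, rfl⟩ := Ball.exists_hemi hw <;>
      rw [hc e v]
    exacts [hK0 e v t, hK1 e v t, hK2 e v t, hK3 e v t]

/-- The sides of a homotopy may be changed inside a weakly contractible space. -/
theorem exists_side_change {W : Type} [TopologicalSpace W] (hZ : WC Z) {n : ℕ} (r : C(Z, W))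
    (F : C(Ball n × I, W)) (S S' : C(rim n × I, Z))
    (hF : ∀ (v : rim n) t, F (v.1, t) = r (S (v, t)))
    (h0 : ∀ v, S (v, 0) = S' (v, 0)) (h1 : ∀ v, S (v, 1) = S' (v, 1)) :
    ∃ F' : C(Ball n × I, W), (∀ v, F' (v, 0) = F (v, 0)) ∧ (∀ v, F' (v, 1) = F (v, 1)) ∧
      ∀ (v : rim n) t, F' (v.1, t) = r (S' (v, t)) := by
  classical
  obtain ⟨K, k0, k1, k2, k3⟩ := hZ.exists_rim_square n S S' h0 h1
  let g : Ball n × I × I → W := fun p =>
    if hp : p.1 ∈ rim n then r (K (⟨p.1, hp⟩, p.2)) else F (p.1, p.2.1)
  have hg0 : ∀ v t, g (v, t, 0) = F (v, t) := fun v t => by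
    by_cases hv : v ∈ rim n
    · simp only [g, dif_pos hv, k0]
      exact (hF ⟨v, hv⟩ t).symm
    · simp [g, hv]
  have hge0 : ∀ v s, g (v, 0, s) = F (v, 0) := fun v s => by
    by_cases hv : v ∈ rim n
    · simp only [g, dif_pos hv, k2]
      exact (hF ⟨v, hv⟩ 0).symm
    · simp [g, hv]
  have hge1 : ∀ v s, g (v, 1, s) = F (v, 1) := fun v s => by
    by_cases hv : v ∈ rim n
    · simp only [g, dif_pos hv, k3]
      exact (hF ⟨v, hv⟩ 1).symm
    · simp [g, hv]
  have hcont : ContinuousOn g ({p | p.1 ∈ rim n} ∪ {p | p.2.1 = 0} ∪ {p | p.2.1 = 1}) := by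
    refine (ContinuousOn.union_of_isClosed ?_ ?_ ((isClosed_rim n).preimage continuous_fst)
      (isClosed_eq (continuous_fst.comp continuous_snd) continuous_const)).union_of_isClosed ?_
      (((isClosed_rim n).preimage continuous_fst).union
        (isClosed_eq (continuous_fst.comp continuous_snd) continuous_const))
      (isClosed_eq (continuous_fst.comp continuous_snd) continuous_const)
    · rw [continuousOn_iff_continuous_domRestrict]
      refine ((r.continuous.comp K.continuous).comp
        (((continuous_fst.comp continuous_subtype_val).subtype_mk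
          fun x : {p : Ball n × I × I | p.1 ∈ rim n} => x.2).prodMk
            (continuous_snd.comp continuous_subtype_val))).congr fun x => ?_
      have hx : x.1.1 ∈ rim n := x.2
      show r (K (⟨x.1.1, hx⟩, x.1.2)) = g x.1
      simp only [g, dif_pos hx]
    · refine (F.continuous.comp (continuous_fst.prodMk (continuous_const (y := (0 : I))))).continuousOn.congr
        fun p hp => ?_
      obtain ⟨v, t, s⟩ := p
      obtain rfl : t = 0 := hp
      exact hge0 v s
    · refine (F.continuous.comp (continuous_fst.prodMk (continuous_const (y := (1 : I))))).continuousOn.congr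
        fun p hp => ?_
      obtain ⟨v, t, s⟩ := p
      obtain rfl : t = 1 := hp
      exact hge1 v s
  let side : C(rim (n + 1) × I, W) :=
    ⟨fun p => g (((cylBall n).symm p.1.1).1, ((cylBall n).symm p.1.1).2, p.2),
      hcont.comp_continuous ((((continuous_fst.comp (cylBall n).symm.continuous).comp
        (continuous_subtype_val.comp continuous_fst))).prodMk
          (((continuous_snd.comp (cylBall n).symm.continuous).comp
            (continuous_subtype_val.comp continuous_fst)).prodMk continuous_snd)) fun p => by
        have := (cylBall_mem_rim ((cylBall n).symm p.1.1)).1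
          (by rw [Homeomorph.apply_symm_apply]; exact p.1.2)
        rcases this with h | h | h
        exacts [Or.inl (Or.inl h), Or.inl (Or.inr h), Or.inr h]⟩
  obtain ⟨G, hG0, hGs⟩ := exists_cyl_lift
    (F.comp ((cylBall n).symm : C(Ball (n + 1), Ball n × I))) side (fun w => hg0 _ _)
  have hGg : ∀ v t, (v ∈ rim n ∨ t = 0 ∨ t = 1) → G (cylBall n (v, t), 1) = g (v, t, 1) :=
    fun v t h => by
      refine (hGs ⟨_, (cylBall_mem_rim (v, t)).2 h⟩ 1).trans ?_
      show g (((cylBall n).symm (cylBall n (v, t))).1,
        ((cylBall n).symm (cylBall n (v, t))).2, 1) = _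
      rw [Homeomorph.symm_apply_apply]
  refine ⟨⟨fun p => G (cylBall n p, 1),
    G.continuous.comp ((cylBall n).continuous.prodMk continuous_const)⟩,
    fun v => (hGg v 0 (Or.inr (Or.inl rfl))).trans (hge0 v 1),
    fun v => (hGg v 1 (Or.inr (Or.inr rfl))).trans (hge1 v 1), fun v t => ?_⟩
  refine (hGg v.1 t (Or.inl v.2)).trans ?_
  simp only [g, dif_pos v.2, Subtype.coe_eta, k1]

end

end Vale.Agent.P259
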